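import Mathlib

namespace Vale.Agent.H83.EdgeLYM

open Finset

section lym

variable {ι : Type*} [DecidableEq ι]

/-- weight of the marked cube edge from `A` to `insert j A` inside the cube on ground set `S` -/
def g (sens : Finset ι → ι → Prop) [∀ A j, Decidable (sens A j)] (S : Finset ι)
    (A : Finset ι) (j : ι) : ℕ :=
  if sens A j then A.card.factorial * (S.card - 1 - A.card).factorial else 0

/-- weighted count of the marked edges inside the cube on ground set `S` -/
def W (sens : Finset ι → ι → Prop) [∀ A j, Decidable (sens A j)] (S : Finset ι) : ℕ :=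
  ∑ j ∈ S, ∑ A ∈ (S.erase j).powerset, g sens S A j

lemma g_split (sens : Finset ι → ι → Prop) [∀ A j, Decidable (sens A j)] (S : Finset ι) (s : ℕ)
    (hs : S.card = s + 1) (j : ι) (hj : j ∈ S) (A : Finset ι) (hA : A ⊆ S.erase j) :
    g sens S A j = (if A = S.erase j then (if sens A j then s.factorial else 0) else 0)
      + ∑ i ∈ (S.erase j) \ A, g sens (S.erase i) A j := by
  have hcardj : (S.erase j).card = s := by
    rw [Finset.card_erase_of_mem hj, hs]; rfl
  have hAle : A.card ≤ s := hcardj ▸ Finset.card_le_card hA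
  have hgi : ∀ i ∈ (S.erase j) \ A, g sens (S.erase i) A j
      = if sens A j then A.card.factorial * (s - 1 - A.card).factorial else 0 := by
    intro i hi
    have hiS : i ∈ S := Finset.mem_of_mem_erase (Finset.mem_sdiff.mp hi).1
    unfold g
    rw [Finset.card_erase_of_mem hiS, hs]
    rfl
  rw [Finset.sum_congr rfl hgi, Finset.sum_const, Finset.card_sdiff_of_subset hA, hcardj]
  unfold g
  rw [hs]
  by_cases hsens : sens A j
  · simp only [hsens, if_true]
    by_cases hAeq : A = S.erase j
    · have hAc : A.card = s := by rw [hAeq, hcardj]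
      simp [hAeq, hcardj]
    · have hlt : A.card < s := by
        rcases Nat.lt_or_ge A.card s with h | h
        · exact h
        · exfalso; apply hAeq
          exact Finset.eq_of_subset_of_card_le hA (by rw [hcardj]; exact h)
      simp only [hAeq, if_false, zero_add, smul_eq_mul]
      have h1 : s + 1 - 1 - A.card = (s - 1 - A.card) + 1 := by omega
      have h2 : s - A.card = (s - 1 - A.card) + 1 := by omega
      rw [h1, Nat.factorial_succ, h2]
      ring
  · simp [hsens]

lemma W_split (sens : Finset ι → ι → Prop) [∀ A j, Decidable (sens A j)] (S : Finset ι) (s : ℕ)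
    (hs : S.card = s + 1) :
    W sens S = ∑ i ∈ S, W sens (S.erase i)
      + ∑ i ∈ S, (if sens (S.erase i) i then s.factorial else 0) := by
  unfold W
  have h1 : ∀ j ∈ S, ∑ A ∈ (S.erase j).powerset, g sens S A j
      = (if sens (S.erase j) j then s.factorial else 0)
        + ∑ i ∈ S.erase j, ∑ A ∈ ((S.erase i).erase j).powerset, g sens (S.erase i) A j := by
    intro j hj
    have h2 : ∀ A ∈ (S.erase j).powerset, g sens S A j
        = (if A = S.erase j then (if sens A j then s.factorial else 0) else 0)
          + ∑ i ∈ (S.erase j) \ A, g sens (S.erase i) A j :=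
      fun A hA => g_split sens S s hs j hj A (Finset.mem_powerset.mp hA)
    rw [Finset.sum_congr rfl h2, Finset.sum_add_distrib]
    congr 1
    · rw [Finset.sum_ite_eq' (S.erase j).powerset (S.erase j)
        (fun A => if sens A j then s.factorial else 0)]
      simp
    · rw [Finset.sum_comm' (s' := fun i => ((S.erase j).erase i).powerset) (t' := S.erase j)]
      · apply Finset.sum_congr rfl
        intro i _
        rw [Finset.erase_right_comm]
      · intro A i
        simp only [Finset.mem_powerset, Finset.mem_sdiff, Finset.subset_erase]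
        tauto
  rw [Finset.sum_congr rfl h1, Finset.sum_add_distrib, add_comm]
  congr 1
  rw [Finset.sum_comm' (s' := fun i => S.erase i) (t' := S)]
  intro j i
  simp only [Finset.mem_erase]
  tauto

theorem lym (sens : Finset ι → ι → Prop) [∀ A j, Decidable (sens A j)] (ρ : Finset ι → ℕ)
    (hmono : ∀ A j, j ∉ A → ρ A ≤ ρ (insert j A))
    (hstrict : ∀ A j, j ∉ A → sens A j → ρ A + 1 ≤ ρ (insert j A)) :
    ∀ S : Finset ι, W sens S + ρ ∅ * S.card.factorial ≤ ρ S * S.card.factorial := by
  intro S
  induction S using Finset.strongInduction with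
  | H S ih =>
    rcases Nat.eq_zero_or_pos S.card with h0 | hpos
    · have hS : S = ∅ := Finset.card_eq_zero.mp h0
      subst hS
      simp [W]
    · obtain ⟨s, hs⟩ : ∃ s, S.card = s + 1 := ⟨S.card - 1, by omega⟩
      rw [W_split sens S s hs, hs, Nat.factorial_succ]
      have hi : ∀ i ∈ S, W sens (S.erase i) + (if sens (S.erase i) i then s.factorial else 0)
          + ρ ∅ * s.factorial ≤ ρ S * s.factorial := by
        intro i hiS
        have hc : (S.erase i).card = s := by
          rw [Finset.card_erase_of_mem hiS, hs]; rfl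
        have h1 := ih (S.erase i) (Finset.erase_ssubset hiS)
        rw [hc] at h1
        have hins : insert i (S.erase i) = S := Finset.insert_erase hiS
        have hni : i ∉ S.erase i := Finset.notMem_erase i S
        by_cases hsens : sens (S.erase i) i
        · have h2 := hstrict (S.erase i) i hni hsens
          rw [hins] at h2
          simp only [hsens, if_true]
          calc W sens (S.erase i) + s.factorial + ρ ∅ * s.factorial
              = (W sens (S.erase i) + ρ ∅ * s.factorial) + s.factorial := by ring
            _ ≤ ρ (S.erase i) * s.factorial + s.factorial := Nat.add_le_add_right h1 _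
            _ = (ρ (S.erase i) + 1) * s.factorial := by ring
            _ ≤ ρ S * s.factorial := Nat.mul_le_mul_right _ h2
        · have h2 := hmono (S.erase i) i hni
          rw [hins] at h2
          simp only [hsens, if_false, add_zero]
          exact h1.trans (Nat.mul_le_mul_right _ h2)
      have hsum := Finset.sum_le_sum hi
      rw [Finset.sum_add_distrib, Finset.sum_add_distrib, Finset.sum_const, Finset.sum_const,
        hs] at hsum
      simp only [smul_eq_mul] at hsum
      calc ∑ i ∈ S, W sens (S.erase i) + ∑ i ∈ S, (if sens (S.erase i) i then s.factorial else 0)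
            + ρ ∅ * ((s + 1) * s.factorial)
          = ∑ i ∈ S, W sens (S.erase i) + ∑ i ∈ S, (if sens (S.erase i) i then s.factorial else 0)
            + (s + 1) * (ρ ∅ * s.factorial) := by ring
        _ ≤ (s + 1) * (ρ S * s.factorial) := hsum
        _ = ρ S * ((s + 1) * s.factorial) := by ring

end lym

section knapsack

lemma exists_smallest (c : ℕ → ℕ) (s : Finset ℕ) :
    ∀ d, d ≤ s.card → ∃ T ⊆ s, T.card = d ∧ ∀ a ∈ T, ∀ b ∈ s \ T, c a ≤ c b := by
  intro d
  induction d with
  | zero =>
    intro _
    exact ⟨∅, Finset.empty_subset _, rfl, fun a ha => absurd ha (Finset.notMem_empty a)⟩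
  | succ d ih =>
    intro hd
    obtain ⟨T, hTs, hTc, hT⟩ := ih (Nat.le_of_succ_le hd)
    have hne : (s \ T).Nonempty := by
      rw [← Finset.card_pos, Finset.card_sdiff_of_subset hTs, hTc]
      omega
    obtain ⟨m, hm, hmin⟩ := Finset.exists_min_image (s \ T) c hne
    have hmT : m ∉ T := (Finset.mem_sdiff.mp hm).2
    refine ⟨insert m T, ?_, ?_, ?_⟩
    · intro x hx
      rcases Finset.mem_insert.mp hx with rfl | hx
      · exact (Finset.mem_sdiff.mp hm).1
      · exact hTs hx
    · rw [Finset.card_insert_of_notMem hmT, hTc]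
    · intro a ha b hb
      have hb' : b ∈ s \ T := by
        rw [Finset.mem_sdiff] at hb ⊢
        exact ⟨hb.1, fun h => hb.2 (Finset.mem_insert_of_mem h)⟩
      rcases Finset.mem_insert.mp ha with rfl | ha
      · exact hmin b hb'
      · exact hT a ha b hb'

lemma knapsack (n d N : ℕ) (c L b : ℕ → ℕ) (hcL : ∀ k < n, c k * L k = N) (hN : 0 < N)
    (hb : ∀ k < n, b k ≤ L k) (hsum : ∑ k ∈ range n, b k * c k ≤ d * N) :
    ∃ T ⊆ range n, T.card ≤ d ∧ ∑ k ∈ range n, b k ≤ ∑ k ∈ T, L k := by
  rcases le_or_gt n d with hnd | hnd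
  · refine ⟨range n, Finset.Subset.refl _, by simpa using hnd, ?_⟩
    exact Finset.sum_le_sum (fun k hk => hb k (Finset.mem_range.mp hk))
  obtain ⟨T, hTs, hTc, hT⟩ := exists_smallest c (range n) d (by simpa using hnd.le)
  refine ⟨T, hTs, hTc.le, ?_⟩
  have hcpos : ∀ k < n, 0 < c k := by
    intro k hk
    have := hcL k hk
    rcases Nat.eq_zero_or_pos (c k) with h0 | h0
    · rw [h0, zero_mul] at this; omega
    · exact h0
  have hTn : ∀ k ∈ T, k < n := fun k hk => Finset.mem_range.mp (hTs hk)
  -- split the sums
  have hsplit : ∀ F : ℕ → ℕ, ∑ k ∈ range n, F k = ∑ k ∈ T, F k + ∑ k ∈ range n \ T, F k := by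
    intro F
    rw [add_comm, Finset.sum_sdiff hTs]
  have hTL : ∑ k ∈ T, L k * c k = d * N := by
    rw [Finset.sum_congr rfl (fun k hk => by rw [mul_comm, hcL k (hTn k hk)]),
      Finset.sum_const, hTc, smul_eq_mul]
  set X := ∑ k ∈ range n \ T, b k with hX
  set Y := ∑ k ∈ T, (L k - b k) with hY
  set P := ∑ k ∈ range n \ T, b k * c k with hP
  set Q := ∑ k ∈ T, (L k - b k) * c k with hQ
  have hPQ : P ≤ Q := by
    have h1 : ∑ k ∈ T, b k * c k + P ≤ ∑ k ∈ T, L k * c k := by
      rw [hTL, ← hsplit (fun k => b k * c k)]; exact hsum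
    have h2 : ∑ k ∈ T, L k * c k = ∑ k ∈ T, b k * c k + Q := by
      rw [hQ, ← Finset.sum_add_distrib]
      apply Finset.sum_congr rfl
      intro k hk
      have := hb k (hTn k hk)
      rw [← add_mul]; congr 1; omega
    omega
  have hXQ : X * Q ≤ P * Y := by
    rw [hX, hQ, hP, hY, Finset.sum_mul_sum, Finset.sum_mul_sum]
    apply Finset.sum_le_sum
    intro k hk
    apply Finset.sum_le_sum
    intro a ha
    have := hT a ha k hk
    calc b k * ((L a - b a) * c a) = (b k * (L a - b a)) * c a := by ring
      _ ≤ (b k * (L a - b a)) * c k := Nat.mul_le_mul_left _ this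
      _ = b k * c k * (L a - b a) := by ring
  have hXY : X ≤ Y := by
    rcases Nat.eq_zero_or_pos P with hP0 | hPpos
    · have : X = 0 := by
        rw [hX]
        apply Finset.sum_eq_zero
        intro k hk
        have hk' : k < n := Finset.mem_range.mp (Finset.mem_sdiff.mp hk).1
        have h0 := (Finset.sum_eq_zero_iff.mp hP0) k hk
        rcases Nat.mul_eq_zero.mp h0 with h | h
        · exact h
        · have := hcpos k hk'; omega
      omega
    · have hQpos : 0 < Q := lt_of_lt_of_le hPpos hPQ
      have h3 : X * Q ≤ Y * Q := by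
        calc X * Q ≤ P * Y := hXQ
          _ ≤ Q * Y := Nat.mul_le_mul_right _ hPQ
          _ = Y * Q := Nat.mul_comm _ _
      exact Nat.le_of_mul_le_mul_right h3 hQpos
  rw [hsplit b]
  calc ∑ k ∈ T, b k + X ≤ ∑ k ∈ T, b k + Y := Nat.add_le_add_left hXY _
    _ = ∑ k ∈ T, L k := by
        rw [hY, ← Finset.sum_add_distrib]
        apply Finset.sum_congr rfl
        intro k hk
        have := hb k (hTn k hk)
        omega

end knapsack

end Vale.Agent.H83.EdgeLYM
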