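import Vale.Agent.H83.Matchings

namespace Vale.Agent.H83.Matchings

open Finset

variable {V : Type*} [DecidableEq V] {G : SimpleGraph V}

/-- the vertices claimed by an alternating tree with outer set `O`: `O` and the partners -/
def cl (τ : V → V) (O : Finset V) : Finset V := O ∪ O.image τ

lemma cl_mono (τ : V → V) {O O' : Finset V} (h : O ⊆ O') : cl τ O ⊆ cl τ O' :=
  union_subset_union h (image_subset_image h)

lemma mem_cl {τ : V → V} {O : Finset V} {x : V} (hinv : ∀ z, τ (τ z) = z) :
    x ∈ cl τ O ↔ x ∈ O ∨ τ x ∈ O := by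
  unfold cl
  rw [mem_union, mem_image]
  constructor
  · rintro (h | ⟨w, hw, rfl⟩)
    · exact Or.inl h
    · right; rw [hinv]; exact hw
  · rintro (h | h)
    · exact Or.inl h
    · exact Or.inr ⟨τ x, h, hinv x⟩

lemma card_cl_le {τ : V → V} {O : Finset V} {r : V} (hr : r ∈ O) (hfix : τ r = r) :
    (cl τ O).card + 1 ≤ 2 * O.card := by
  have hsub : cl τ O ⊆ O ∪ (O.erase r).image τ := by
    intro x hx
    unfold cl at hx
    rw [mem_union, mem_image] at hx
    rcases hx with h | ⟨w, hw, rfl⟩
    · exact mem_union_left _ h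
    · by_cases hwr : w = r
      · rw [hwr, hfix]; exact mem_union_left _ hr
      · exact mem_union_right _ (mem_image_of_mem _ (mem_erase.mpr ⟨hwr, hw⟩))
  have h1 := card_le_card hsub
  have h2 := card_union_le O ((O.erase r).image τ)
  have h3 : ((O.erase r).image τ).card ≤ (O.erase r).card := card_image_le
  have h4 : (O.erase r).card + 1 = O.card := card_erase_add_one hr
  omega

/-- an alternating tree rooted at `r` with outer set `O` and depth function `dep` -/
structure ATree (G : SimpleGraph V) (τ : V → V) (r : V) (O : Finset V) (dep : V → ℕ) :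
    Prop where
  root : r ∈ O
  dep_root : dep r = 0
  io : ∀ x ∈ O, x ≠ r → τ x ∉ O
  path : ∀ x ∈ O, ∃ as : List V, Link G τ r as ∧ cur τ r as = x ∧ as.Nodup ∧
      (∀ a ∈ as, τ a ∈ O ∧ a ∉ O) ∧ as.length = dep x

/-- breadth-first growth conditions of a tree inside the claimed set `C` -/
structure Grow (G : SimpleGraph V) (g : ℕ) (C : Finset V) (O : Finset V) (dep : V → ℕ) :
    Prop where
  closed : ∀ x ∈ O, dep x + 2 ≤ O.sup dep → ∀ y, G.Adj x y → y ∈ C
  growth : ∀ j, j + 2 ≤ O.sup dep →
    g * (O.filter (fun x => dep x ≤ j)).card ≤ (O.filter (fun x => dep x ≤ j + 1)).card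

omit [DecidableEq V] in
lemma Grow.mono {g : ℕ} {C C' O : Finset V} {dep : V → ℕ} (h : Grow G g C O dep)
    (hC : C ⊆ C') : Grow G g C' O dep where
  closed := fun x hx hd y hy => hC (h.closed x hx hd y hy)
  growth := h.growth

/-- a pair of disjoint balanced alternating trees rooted at the two uncovered vertices -/
structure St (G : SimpleGraph V) (τ : V → V) (g : ℕ) (u v : V) (Ou Ov : Finset V)
    (du dv : V → ℕ) : Prop where
  tu : ATree G τ u Ou du
  tv : ATree G τ v Ov dv
  disj : ∀ x ∈ Ou, x ∉ Ov ∧ τ x ∉ Ov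
  bal1 : Ou.card ≤ Ov.card + 1
  bal2 : Ov.card ≤ Ou.card + 1
  gu : Grow G g (cl τ Ou ∪ cl τ Ov) Ou du
  gv : Grow G g (cl τ Ou ∪ cl τ Ov) Ov dv

omit [DecidableEq V] in
lemma IsNPM.swap {τ : V → V} {u v : V} (h : IsNPM G τ u v) : IsNPM G τ v u where
  invol := h.invol
  fix_u := h.fix_v
  fix_v := h.fix_u
  ne := h.ne.symm
  adj := fun x hx1 hx2 => h.adj x hx2 hx1

lemma St.swap {τ : V → V} {g : ℕ} {u v : V} {Ou Ov : Finset V} {du dv : V → ℕ}
    (hτ : IsNPM G τ u v) (h : St G τ g u v Ou Ov du dv) : St G τ g v u Ov Ou dv du where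
  tu := h.tv
  tv := h.tu
  disj := by
    intro y hy
    constructor
    · intro hy'
      exact (h.disj y hy').1 hy
    · intro hy'
      have := (h.disj (τ y) hy').2
      rw [hτ.invol] at this
      exact this hy
  bal1 := h.bal2
  bal2 := h.bal1
  gu := by rw [union_comm]; exact h.gv
  gv := by rw [union_comm]; exact h.gu

lemma St.init {τ : V → V} {u v : V} (g : ℕ) (hτ : IsNPM G τ u v) :
    St G τ g u v {u} {v} (fun _ => 0) (fun _ => 0) where
  tu := { root := mem_singleton_self u
          dep_root := rfl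
          io := by
            intro x hx hne
            exact absurd (mem_singleton.mp hx) hne
          path := by
            intro x hx
            rw [mem_singleton] at hx
            subst hx
            exact ⟨[], trivial, rfl, List.nodup_nil, by simp, rfl⟩ }
  tv := { root := mem_singleton_self v
          dep_root := rfl
          io := by
            intro x hx hne
            exact absurd (mem_singleton.mp hx) hne
          path := by
            intro x hx
            rw [mem_singleton] at hx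
            subst hx
            exact ⟨[], trivial, rfl, List.nodup_nil, by simp, rfl⟩ }
  disj := by
    intro x hx
    rw [mem_singleton] at hx
    subst hx
    rw [hτ.fix_u, mem_singleton]
    exact ⟨hτ.ne, hτ.ne⟩
  bal1 := by simp
  bal2 := by simp
  gu := { closed := by
            intro x _ hd
            simp at hd
          growth := by
            intro j hd
            simp at hd }
  gv := { closed := by
            intro x _ hd
            simp at hd
          growth := by
            intro j hd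
            simp at hd }

lemma St.step {τ : V → V} {u v : V} {g s : ℕ} {Ou Ov : Finset V} {du dv : V → ℕ}
    (hτ : IsNPM G τ u v) (hg : 2 ≤ g)
    (hX1 : ∀ S T : Finset V, S.card ≤ s → (∀ x ∈ S, ∀ y, G.Adj x y → y ∈ T) →
      4 * g * S.card ≤ T.card)
    (h : St G τ g u v Ou Ov du dv) (hle : Ou.card ≤ Ov.card) (hs : Ou.card ≤ s) :
    ∃ z du', z ∉ Ou ∧ St G τ g u v (insert z Ou) Ov du' dv := by
  classical
  obtain ⟨C, hCdef⟩ : ∃ C, C = cl τ Ou ∪ cl τ Ov := ⟨_, rfl⟩
  have hinv := hτ.invol
  have hOu1 : 1 ≤ Ou.card := card_pos.mpr ⟨u, h.tu.root⟩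
  -- the claimed set is small
  have hCcard : C.card ≤ 4 * Ou.card := by
    have h1 := card_cl_le h.tu.root hτ.fix_u
    have h2 := card_cl_le h.tv.root hτ.fix_v
    have h3 := card_union_le (cl τ Ou) (cl τ Ov)
    have h4 := h.bal2
    rw [hCdef]
    omega
  have hCmem : ∀ x, x ∈ C ↔ (x ∈ Ou ∨ τ x ∈ Ou) ∨ (x ∈ Ov ∨ τ x ∈ Ov) := by
    intro x
    rw [hCdef, mem_union, mem_cl hinv, mem_cl hinv]
  have hCτ : ∀ x, τ x ∈ C → x ∈ C := by
    intro x hx
    rw [hCmem] at hx ⊢
    rw [hinv] at hx
    tauto
  have hOuC : ∀ x ∈ Ou, x ∈ C := fun x hx => (hCmem x).mpr (Or.inl (Or.inl hx))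
  have hOvC : ∀ x ∈ Ov, x ∈ C := fun x hx => (hCmem x).mpr (Or.inr (Or.inl hx))
  -- some outer vertex of the first tree has an unclaimed neighbour
  have hB : (Ou.filter (fun x => ∃ y, G.Adj x y ∧ y ∉ C)).Nonempty := by
    by_contra hcon
    rw [not_nonempty_iff_eq_empty] at hcon
    have hall : ∀ x ∈ Ou, ∀ y, G.Adj x y → y ∈ C := by
      intro x hx y hy
      by_contra hyC
      have : x ∈ Ou.filter (fun x => ∃ y, G.Adj x y ∧ y ∉ C) :=
        mem_filter.mpr ⟨hx, y, hy, hyC⟩
      rw [hcon] at this
      exact absurd this (notMem_empty x)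
    have h1 := hX1 Ou C hs hall
    have h2 : 4 * g * Ou.card ≤ 4 * Ou.card := h1.trans hCcard
    have h3 : 4 * 2 * Ou.card ≤ 4 * g * Ou.card := by gcongr
    omega
  obtain ⟨x, hxB, hxmin⟩ := exists_min_image _ du hB
  rw [mem_filter] at hxB
  obtain ⟨hxO, y, hxy, hyC⟩ := hxB
  have hclosed : ∀ w ∈ Ou, du w < du x → ∀ y', G.Adj w y' → y' ∈ C := by
    intro w hw hlt y' hy'
    by_contra hy'C
    have : w ∈ Ou.filter (fun x => ∃ y, G.Adj x y ∧ y ∉ C) :=
      mem_filter.mpr ⟨hw, y', hy', hy'C⟩
    have := hxmin w this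
    omega
  have hyu : y ≠ u := fun e => hyC (e ▸ hOuC u h.tu.root)
  have hyv : y ≠ v := fun e => hyC (e ▸ hOvC v h.tv.root)
  have hzC : τ y ∉ C := fun hz => hyC (hCτ y hz)
  have hyOu : y ∉ Ou := fun hy => hyC (hOuC y hy)
  have hyOv : y ∉ Ov := fun hy => hyC (hOvC y hy)
  have hzOu : τ y ∉ Ou := fun hz => hzC (hOuC _ hz)
  have hzOv : τ y ∉ Ov := fun hz => hzC (hOvC _ hz)
  have hzy : τ y ≠ y := fun e => G.loopless.irrefl y (by simpa [e] using hτ.adj y hyu hyv)
  have hdu' : ∀ w ∈ Ou, Function.update du (τ y) (du x + 1) w = du w := by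
    intro w hw
    apply Function.update_of_ne
    intro e
    exact hzOu (e ▸ hw)
  have hsup : (insert (τ y) Ou).sup (Function.update du (τ y) (du x + 1))
      = max (du x + 1) (Ou.sup du) := by
    rw [sup_insert, Function.update_self, sup_congr rfl hdu']
  have hxsup : du x ≤ Ou.sup du := le_sup (f := du) hxO
  have hxnot : ¬ (du x + 2 ≤ Ou.sup du) := by
    intro hd
    exact hyC (hCdef ▸ h.gu.closed x hxO hd y hxy)
  have hfilt : ∀ j, j ≤ du x →
      (insert (τ y) Ou).filter (fun w => Function.update du (τ y) (du x + 1) w ≤ j)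
        = Ou.filter (fun w => du w ≤ j) := by
    intro j hj
    rw [filter_insert, if_neg (by rw [Function.update_self]; omega)]
    apply filter_congr
    intro w hw
    rw [hdu' w hw]
  have hCsub : C ⊆ cl τ (insert (τ y) Ou) ∪ cl τ Ov := by
    rw [hCdef]
    exact union_subset_union (cl_mono τ (subset_insert _ _)) (subset_refl _)
  refine ⟨τ y, Function.update du (τ y) (du x + 1), hzOu, ?_⟩
  refine ⟨⟨mem_insert_of_mem h.tu.root, ?_, ?_, ?_⟩, h.tv, ?_, ?_, ?_, ⟨?_, ?_⟩,
    (hCdef ▸ h.gv).mono hCsub⟩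
  · -- depth of the root
    rw [hdu' u h.tu.root]
    exact h.tu.dep_root
  · -- outer and inner vertices are different
    intro w hw hwu
    rw [mem_insert] at hw
    rcases hw with rfl | hw
    · rw [hinv, mem_insert]
      push Not
      exact ⟨fun e => hzy e.symm, hyOu⟩
    · rw [mem_insert]
      push Not
      refine ⟨?_, h.tu.io w hw hwu⟩
      intro e
      exact hyOu (hτ.inj e ▸ hw)
  · -- tree paths
    intro w hw
    rw [mem_insert] at hw
    rcases hw with rfl | hw
    · obtain ⟨as, hl, hc, hnd, hmem, hlen⟩ := h.tu.path x hxO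
      refine ⟨as ++ [y], ?_, ?_, ?_, ?_, ?_⟩
      · rw [link_append, hc]
        exact ⟨hl, hxy, trivial⟩
      · rw [cur_append]
        rfl
      · rw [List.nodup_append]
        refine ⟨hnd, List.nodup_singleton y, ?_⟩
        intro a ha b hb
        rw [List.mem_singleton] at hb
        subst hb
        intro e
        exact hzOu (e ▸ (hmem a ha).1)
      · intro a ha
        rw [List.mem_append, List.mem_singleton] at ha
        rcases ha with ha | rfl
        · refine ⟨mem_insert_of_mem (hmem a ha).1, ?_⟩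
          rw [mem_insert]
          push Not
          refine ⟨?_, (hmem a ha).2⟩
          intro e
          have := (hmem a ha).1
          rw [e, hinv] at this
          exact hyOu this
        · refine ⟨mem_insert_self _ _, ?_⟩
          rw [mem_insert]
          push Not
          exact ⟨fun e => hzy e.symm, hyOu⟩
      · rw [List.length_append, hlen, Function.update_self]
        rfl
    · obtain ⟨as, hl, hc, hnd, hmem, hlen⟩ := h.tu.path w hw
      refine ⟨as, hl, hc, hnd, ?_, ?_⟩
      · intro a ha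
        refine ⟨mem_insert_of_mem (hmem a ha).1, ?_⟩
        rw [mem_insert]
        push Not
        refine ⟨?_, (hmem a ha).2⟩
        intro e
        have := (hmem a ha).1
        rw [e, hinv] at this
        exact hyOu this
      · rw [hlen, hdu' w hw]
  · -- the trees stay disjoint
    intro w hw
    rw [mem_insert] at hw
    rcases hw with rfl | hw
    · rw [hinv]
      exact ⟨hzOv, hyOv⟩
    · exact h.disj w hw
  · rw [card_insert_of_notMem hzOu]
    omega
  · rw [card_insert_of_notMem hzOu]
    have := h.bal2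
    omega
  · -- closed vertices
    intro w hw hd y' hy'
    rw [hsup] at hd
    rw [mem_insert] at hw
    rcases hw with rfl | hw
    · rw [Function.update_self] at hd
      omega
    · rw [hdu' w hw] at hd
      apply hCsub
      apply hclosed w hw _ y' hy'
      omega
  · -- growth of the levels
    intro j hd
    rw [hsup] at hd
    have hj : j + 1 ≤ du x := by omega
    rw [hfilt j (by omega), hfilt (j + 1) hj]
    by_cases hjD : j + 2 ≤ Ou.sup du
    · exact h.gu.growth j hjD
    · have hD : Ou.sup du = j + 1 := by omega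
      have hall : Ou.filter (fun w => du w ≤ j + 1) = Ou := by
        apply filter_true_of_mem
        intro w hw
        rw [← hD]
        exact le_sup (f := du) hw
      rw [hall]
      have hS : (Ou.filter (fun w => du w ≤ j)).card ≤ s :=
        (card_le_card (filter_subset _ _)).trans hs
      have h1 := hX1 (Ou.filter (fun w => du w ≤ j)) C hS (by
        intro w hw y' hy'
        rw [mem_filter] at hw
        exact hclosed w hw.1 (by omega) y' hy')
      have h2 : 4 * (g * (Ou.filter (fun w => du w ≤ j)).card) ≤ 4 * Ou.card := by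
        rw [← mul_assoc]
        exact h1.trans hCcard
      omega

lemma St.card_le [Fintype V] {τ : V → V} {u v : V} {g : ℕ} {Ou Ov : Finset V} {du dv : V → ℕ}
    (h : St G τ g u v Ou Ov du dv) : Ou.card + Ov.card ≤ Fintype.card V := by
  have hd : Disjoint Ou Ov := by
    rw [disjoint_left]
    intro x hx
    exact (h.disj x hx).1
  rw [← card_union_of_disjoint hd]
  exact card_le_univ _

lemma St.exists_found [Fintype V] {τ : V → V} {u v : V} {g s : ℕ}
    (hτ : IsNPM G τ u v) (hg : 2 ≤ g)
    (hX1 : ∀ S T : Finset V, S.card ≤ s → (∀ x ∈ S, ∀ y, G.Adj x y → y ∈ T) →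
      4 * g * S.card ≤ T.card)
    (hX2 : ∀ A B : Finset V, s ≤ A.card → s ≤ B.card → ∃ a ∈ A, ∃ b ∈ B, G.Adj a b) :
    ∀ n : ℕ, ∀ (Ou Ov : Finset V) (du dv : V → ℕ), St G τ g u v Ou Ov du dv →
      Fintype.card V ≤ Ou.card + Ov.card + n →
      ∃ (Ou' Ov' : Finset V) (du' dv' : V → ℕ), St G τ g u v Ou' Ov' du' dv' ∧
        ∃ x ∈ Ou', ∃ y ∈ Ov', G.Adj x y := by
  have hX1' : ∀ S T : Finset V, S.card ≤ s → (∀ x ∈ S, ∀ y, G.Adj x y → y ∈ T) →
      4 * g * S.card ≤ T.card := hX1
  intro n
  induction n with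
  | zero =>
    intro Ou Ov du dv h hn
    by_cases hfound : ∃ x ∈ Ou, ∃ y ∈ Ov, G.Adj x y
    · exact ⟨Ou, Ov, du, dv, h, hfound⟩
    · exfalso
      have hsmall : ¬ (s ≤ Ou.card ∧ s ≤ Ov.card) := fun hh => hfound (hX2 Ou Ov hh.1 hh.2)
      rcases Nat.le_total Ou.card Ov.card with hle | hle
      · obtain ⟨z, du', hz, h'⟩ := h.step hτ hg hX1 hle (by omega)
        have := h'.card_le
        rw [card_insert_of_notMem hz] at this
        omega
      · obtain ⟨z, dv', hz, h'⟩ := (h.swap hτ).step hτ.swap hg hX1 hle (by omega)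
        have := h'.card_le
        rw [card_insert_of_notMem hz] at this
        omega
  | succ n ih =>
    intro Ou Ov du dv h hn
    by_cases hfound : ∃ x ∈ Ou, ∃ y ∈ Ov, G.Adj x y
    · exact ⟨Ou, Ov, du, dv, h, hfound⟩
    · have hsmall : ¬ (s ≤ Ou.card ∧ s ≤ Ov.card) := fun hh => hfound (hX2 Ou Ov hh.1 hh.2)
      rcases Nat.le_total Ou.card Ov.card with hle | hle
      · obtain ⟨z, du', hz, h'⟩ := h.step hτ hg hX1 hle (by omega)
        apply ih _ _ _ _ h'
        rw [card_insert_of_notMem hz]
        omega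
      · obtain ⟨z, dv', hz, h'⟩ := (h.swap hτ).step hτ.swap hg hX1 hle (by omega)
        apply ih _ _ _ _ (h'.swap hτ.swap)
        rw [card_insert_of_notMem hz]
        omega

omit [DecidableEq V] in
lemma depth_bound {τ : V → V} {r : V} {g : ℕ} {C O : Finset V} {dep : V → ℕ} (hg : 2 ≤ g)
    (ht : ATree G τ r O dep) (hgr : Grow G g C O dep) {x : V} (hx : x ∈ O) :
    dep x ≤ Nat.log g O.card + 1 := by
  have hlev : ∀ j, j + 1 ≤ O.sup dep → g ^ j ≤ (O.filter (fun w => dep w ≤ j)).card := by
    intro j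
    induction j with
    | zero =>
      intro _
      rw [pow_zero]
      exact card_pos.mpr ⟨r, mem_filter.mpr ⟨ht.root, by rw [ht.dep_root]⟩⟩
    | succ j ih =>
      intro hj
      have h1 := ih (by omega)
      have h2 := hgr.growth j (by omega)
      calc g ^ (j + 1) = g * g ^ j := by rw [pow_succ, mul_comm]
        _ ≤ g * (O.filter (fun w => dep w ≤ j)).card := Nat.mul_le_mul_left g h1
        _ ≤ _ := h2
  have hxs : dep x ≤ O.sup dep := le_sup (f := dep) hx
  rcases Nat.eq_zero_or_pos (O.sup dep) with h0 | hpos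
  · omega
  · have h1 := hlev (O.sup dep - 1) (by omega)
    have h2 : g ^ (O.sup dep - 1) ≤ O.card := h1.trans (card_le_card (filter_subset _ _))
    have h3 := Nat.le_log_of_pow_le (by omega : 1 < g) h2
    omega

omit [DecidableEq V] in
lemma rev_link {τ : V → V} (hinv : ∀ z, τ (τ z) = z) (x : V) (as : List V) :
    ∀ c : V, Link G τ c as → G.Adj x (cur τ c as) →
      Link G τ x ((as.map τ).reverse) ∧ G.Adj (cur τ x ((as.map τ).reverse)) c := by
  induction as with
  | nil =>
    intro c _ hadj
    exact ⟨trivial, hadj⟩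
  | cons a rest ih =>
    intro c hl hadj
    obtain ⟨h1, h2⟩ := ih (τ a) hl.2 hadj
    rw [List.map_cons, List.reverse_cons]
    refine ⟨?_, ?_⟩
    · rw [link_append]
      exact ⟨h1, h2, trivial⟩
    · rw [cur_append]
      show G.Adj (τ (τ a)) c
      rw [hinv]
      exact hl.1.symm

theorem exists_short_aug [Fintype V] {τ : V → V} {u v : V} {g s : ℕ}
    (hτ : IsNPM G τ u v) (hg : 2 ≤ g)
    (hX1 : ∀ S T : Finset V, S.card ≤ s → (∀ x ∈ S, ∀ y, G.Adj x y → y ∈ T) →
      4 * g * S.card ≤ T.card)
    (hX2 : ∀ A B : Finset V, s ≤ A.card → s ≤ B.card → ∃ a ∈ A, ∃ b ∈ B, G.Adj a b) :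
    ∃ as : List V, IsAug G τ u v as ∧ as.length ≤ 2 * Nat.log g (Fintype.card V) + 2 := by
  obtain ⟨Ou, Ov, du, dv, h, x, hx, y, hy, hxy⟩ :=
    St.exists_found hτ hg hX1 hX2 (Fintype.card V) {u} {v} (fun _ => 0) (fun _ => 0)
      (St.init g hτ) (by omega)
  have hinv := hτ.invol
  obtain ⟨as1, hl1, hc1, hnd1, hmem1, hlen1⟩ := h.tu.path x hx
  obtain ⟨as2, hl2, hc2, hnd2, hmem2, hlen2⟩ := h.tv.path y hy
  have hrev := rev_link hinv x as2 v hl2 (by rw [hc2]; exact hxy)
  have hd1 := depth_bound hg h.tu h.gu hx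
  have hd2 := depth_bound hg h.tv h.gv hy
  have hcu : Nat.log g Ou.card ≤ Nat.log g (Fintype.card V) :=
    Nat.log_mono_right (card_le_univ _)
  have hcv : Nat.log g Ov.card ≤ Nat.log g (Fintype.card V) :=
    Nat.log_mono_right (card_le_univ _)
  refine ⟨as1 ++ (as2.map τ).reverse, ⟨?_, ?_, ?_, ?_⟩, ?_⟩
  · rw [link_append, hc1]
    exact ⟨hl1, hrev.1⟩
  · rw [cur_append, hc1]
    exact hrev.2
  · rw [List.nodup_append]
    refine ⟨hnd1, ?_, ?_⟩
    · rw [List.nodup_reverse]
      exact hnd2.map (fun a b hab => hτ.inj hab)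
    · intro a ha b hb e
      rw [List.mem_reverse, List.mem_map] at hb
      obtain ⟨a', ha', rfl⟩ := hb
      have h1 := (hmem1 a ha).1
      have h2 := (h.disj _ h1).2
      rw [hinv, e] at h2
      exact h2 (hmem2 a' ha').1
  · intro p hp q hq
    rw [List.mem_append, List.mem_reverse, List.mem_map] at hp hq
    rcases hp with hp | ⟨a', ha', rfl⟩
    · rcases hq with hq | ⟨a'', ha'', rfl⟩
      · intro e
        exact (hmem1 p hp).2 (e ▸ (hmem1 q hq).1)
      · rw [hinv]
        intro e
        have h1 := (hmem1 p hp).1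
        have h2 := (h.disj _ h1).1
        rw [e] at h2
        exact h2 (hmem2 a'' ha'').1
    · rcases hq with hq | ⟨a'', ha'', rfl⟩
      · intro e
        have h1 := (hmem1 q hq).1
        have h2 := (h.disj _ h1).1
        rw [← e] at h2
        exact h2 (hmem2 a' ha').1
      · rw [hinv]
        intro e
        exact (hmem2 a'' ha'').2 (e ▸ (hmem2 a' ha').1)
  · rw [List.length_append, List.length_reverse, List.length_map, hlen1, hlen2]
    omega

end Vale.Agent.H83.Matchings
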