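import Vale.Agent.H83.MatchingsCount
import Vale.Agent.H83.Expander

namespace Vale.Agent.H83.Matchings

open SimpleGraph

variable {V : Type*} [Fintype V] [DecidableEq V] {G : SimpleGraph V} [DecidableRel G.Adj]

/-- the position of `b` among the neighbours of `a`, as an element of `Fin d` -/
noncomputable def nidx (G : SimpleGraph V) [DecidableRel G.Adj] (d : ℕ) (hd : 0 < d)
    (hdeg : ∀ x, G.degree x ≤ d) (a b : V) : Fin d :=
  if h : b ∈ G.neighborFinset a then
    Fin.castLE (hdeg a) ((G.neighborFinset a).equivFin ⟨b, h⟩)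
  else ⟨0, hd⟩

lemma nidx_inj {d : ℕ} (hd : 0 < d) (hdeg : ∀ x, G.degree x ≤ d) {a b b' : V}
    (hb : G.Adj a b) (hb' : G.Adj a b') (h : nidx G d hd hdeg a b = nidx G d hd hdeg a b') :
    b = b' := by
  unfold nidx at h
  rw [dif_pos ((G.mem_neighborFinset a b).mpr hb),
    dif_pos ((G.mem_neighborFinset a b').mpr hb')] at h
  have h1 := Fin.castLE_injective _ h
  have h2 := (G.neighborFinset a).equivFin.injective h1
  exact congrArg Subtype.val h2

lemma code_inj {d : ℕ} (hd : 0 < d) (hdeg : ∀ x, G.degree x ≤ d) {σ τ τ' : V → V} {v v' : V}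
    (as : List V) :
    ∀ (as' : List V) (c : V), Follow σ τ v c as → Follow σ τ' v' c as' →
      (∀ a ∈ as, G.Adj a (τ a)) → (∀ a ∈ as', G.Adj a (τ' a)) →
      as.map (fun a => nidx G d hd hdeg a (τ a)) = as'.map (fun a => nidx G d hd hdeg a (τ' a)) →
      as.map τ = as'.map τ' := by
  induction as with
  | nil =>
    intro as' c _ _ _ _ hcode
    cases as' with
    | nil => rfl
    | cons a' rest' => simp at hcode
  | cons a rest ih =>
    intro as' c h h' hadj hadj' hcode
    cases as' with
    | nil => simp at hcode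
    | cons a' rest' =>
      simp only [Follow] at h h'
      simp only [List.map_cons, List.cons.injEq] at hcode ⊢
      have haa : a = a' := h.1.symm.trans h'.1
      subst haa
      have hτ : τ a = τ' a :=
        nidx_inj hd hdeg (hadj a List.mem_cons_self) (hadj' a List.mem_cons_self) hcode.1
      refine ⟨hτ, ?_⟩
      apply ih rest' (τ a) h.2 (by rw [hτ]; exact h'.2)
        (fun b hb => hadj b (List.mem_cons_of_mem _ hb))
        (fun b hb => hadj' b (List.mem_cons_of_mem _ hb)) hcode.2

omit [Fintype V] [DecidableEq V] [DecidableRel G.Adj] in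
lemma npm_data2 [DecidableEq V] (K : ℕ)
    (hshort : ∀ (τ : V → V) (u v : V), IsNPM G τ u v →
      ∃ as : List V, IsAug G τ u v as ∧ as.length ≤ K)
    (M : G.Subgraph) (hM : M.IsMatching) (hc : M.vertsᶜ.ncard = 2) :
    ∃ (u v : V) (as : List V) (σ : V → V), IsNPM G (partner M hM) u v ∧ IsPM G σ ∧
      Follow σ (partner M hM) v u as ∧
      (∀ x, x ≠ u → x ≠ v → x ∉ as → x ∉ as.map (partner M hM) → σ x = partner M hM x) ∧
      (∀ a ∈ as, G.Adj a (partner M hM a)) ∧ as.length ≤ K := by
  obtain ⟨u, v, huv, huvc⟩ := Set.ncard_eq_two.mp hc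
  have hτ := isNPM_partner M hM huv huvc
  obtain ⟨as, has, hlen⟩ := hshort _ u v hτ
  obtain ⟨σ, hσ, hfol, hout⟩ := exists_augment as (partner M hM) u v hτ has
  refine ⟨u, v, as, σ, hτ, hσ, hfol, hout, ?_, hlen⟩
  intro a ha
  apply hτ.adj
  · intro e
    apply has.disj a ha a ha
    rw [e, hτ.fix_u]
  · intro e
    apply has.disj a ha a ha
    rw [e, hτ.fix_v]

theorem ratio_bound2 (d K : ℕ) (hd : 0 < d) (hdeg : ∀ x, G.degree x ≤ d)
    (hshort : ∀ (τ : V → V) (u v : V), IsNPM G τ u v →
      ∃ as : List V, IsAug G τ u v as ∧ as.length ≤ K) :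
    Nat.card {M : G.Subgraph // M.IsMatching ∧ M.vertsᶜ.ncard = 2}
      ≤ Fintype.card V * (d + 1) ^ K * Nat.card {M : G.Subgraph // M.IsPerfectMatching} := by
  classical
  have hdata := fun (m : {M : G.Subgraph // M.IsMatching ∧ M.vertsᶜ.ncard = 2}) =>
    npm_data2 K hshort m.1 m.2.1 m.2.2
  choose fu fv fas fσ h1 h2 h3 h4 h5 h6 using hdata
  let code : {M : G.Subgraph // M.IsMatching ∧ M.vertsᶜ.ncard = 2} → List (Fin d) :=
    fun m => (fas m).map (fun a => nidx G d hd hdeg a (partner m.1 m.2.1 a))
  let Φ : {M : G.Subgraph // M.IsMatching ∧ M.vertsᶜ.ncard = 2} →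
      {M : G.Subgraph // M.IsPerfectMatching} × V × (Fin K → Option (Fin d)) :=
    fun m => (⟨toSubgraph (fσ m) (h2 m), toSubgraph_isPerfectMatching _ _⟩, fu m,
      fun i => (code m)[i.val]?)
  have hinj : Function.Injective Φ := by
    intro m m' heq
    have e1 : toSubgraph (fσ m) (h2 m) = toSubgraph (fσ m') (h2 m') :=
      congrArg (fun p => p.1.1) heq
    have hσeq : fσ m = fσ m' := toSubgraph_inj _ _ e1
    have hu : fu m = fu m' := congrArg (fun p => p.2.1) heq
    have e2 : (fun i : Fin K => (code m)[i.val]?) = (fun i : Fin K => (code m')[i.val]?) :=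
      congrArg (fun p => p.2.2) heq
    have hcode : code m = code m' := by
      apply List.ext_getElem?
      intro i
      by_cases hi : i < K
      · exact congrFun e2 ⟨i, hi⟩
      · have l1 : (code m).length ≤ i := by
          have := h6 m
          simp only [code, List.length_map]
          omega
        have l2 : (code m').length ≤ i := by
          have := h6 m'
          simp only [code, List.length_map]
          omega
        rw [List.getElem?_eq_none l1, List.getElem?_eq_none l2]
    have hf' := h3 m'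
    have ho' := h4 m'
    rw [← hσeq, ← hu] at hf'
    rw [← hσeq, ← hu] at ho'
    have hmap : (fas m).map (partner m.1 m.2.1) = (fas m').map (partner m'.1 m'.2.1) :=
      code_inj hd hdeg (fas m) (fas m') (fu m) (h3 m) hf' (h5 m) (h5 m') hcode
    have h1' := h1 m'
    rw [← hu] at h1'
    have hτeq : partner m.1 m.2.1 = partner m'.1 m'.2.1 :=
      decode (h1 m) h1' (h3 m) hf' (h4 m) ho' (by rw [hmap])
    exact Subtype.ext (eq_of_partner_eq _ _ _ _ hτeq)
  have hcard := Nat.card_le_card_of_injective Φ hinj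
  rw [Nat.card_prod, Nat.card_prod, Nat.card_fun] at hcard
  rw [Nat.card_eq_fintype_card (α := Option (Fin d)), Nat.card_eq_fintype_card (α := Fin K),
    Nat.card_eq_fintype_card (α := V), Fintype.card_option, Fintype.card_fin,
    Fintype.card_fin] at hcard
  calc Nat.card {M : G.Subgraph // M.IsMatching ∧ M.vertsᶜ.ncard = 2}
      ≤ Nat.card {M : G.Subgraph // M.IsPerfectMatching} * (Fintype.card V * (d + 1) ^ K) := hcard
    _ = Fintype.card V * (d + 1) ^ K * Nat.card {M : G.Subgraph // M.IsPerfectMatching} := by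
        ring

end Vale.Agent.H83.Matchings
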