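import Vale.Agent.H83.ExpanderCount

namespace Vale.Agent.H83.Matchings

open Finset SimpleGraph

variable {V : Type*} [Fintype V] [DecidableEq V] {G : SimpleGraph V} [DecidableRel G.Adj]

omit [DecidableEq V] in
lemma sum_nbr {d : ℕ} (hreg : ∀ x, G.degree x = d) (f : V → ℝ) :
    ∑ x, ∑ y ∈ G.neighborFinset x, f y = d * ∑ y, f y := by
  have h1 : ∀ x, ∑ y ∈ G.neighborFinset x, f y = ∑ y, if G.Adj x y then f y else 0 := by
    intro x
    rw [← Finset.sum_filter, G.neighborFinset_eq_filter]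
  simp_rw [h1]
  rw [Finset.sum_comm]
  have h2 : ∀ y, ∑ x, (if G.Adj x y then f y else 0) = d * f y := by
    intro y
    rw [← Finset.sum_filter, Finset.sum_const, nsmul_eq_mul]
    congr 2
    rw [← hreg y, ← G.card_neighborFinset_eq_degree, G.neighborFinset_eq_filter]
    congr 1
    ext x
    simp [adj_comm]
  simp_rw [h2]
  rw [Finset.mul_sum]

lemma sum_ind (S : Finset V) : ∑ y, (if y ∈ S then (1 : ℝ) else 0) = S.card := by
  simp

lemma spec_ind {d : ℕ} {lam : ℝ} (hreg : ∀ x, G.degree x = d)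
    (hspec : ∀ f : V → ℝ, ∑ x, f x = 0 →
      ∑ x, (∑ y ∈ G.neighborFinset x, f y) ^ 2 ≤ lam ^ 2 * ∑ x, f x ^ 2)
    (hN : 0 < Fintype.card V) (S : Finset V) :
    ∑ x, ((∑ y ∈ G.neighborFinset x, if y ∈ S then (1 : ℝ) else 0)
        - d * S.card / Fintype.card V) ^ 2 ≤ lam ^ 2 * S.card := by
  obtain ⟨N, hNdef⟩ : ∃ N : ℝ, N = Fintype.card V := ⟨_, rfl⟩
  obtain ⟨c, hcdef⟩ : ∃ c : ℝ, c = S.card / N := ⟨_, rfl⟩
  have hNpos : 0 < N := by rw [hNdef]; exact_mod_cast hN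
  have hcN : c * N = S.card := by rw [hcdef]; field_simp
  have hc0 : 0 ≤ c := by rw [hcdef]; positivity
  have hf0 : ∑ y, ((if y ∈ S then (1 : ℝ) else 0) - c) = 0 := by
    rw [Finset.sum_sub_distrib, sum_ind, Finset.sum_const, card_univ, nsmul_eq_mul, ← hNdef]
    linarith
  have h := hspec (fun y => (if y ∈ S then (1 : ℝ) else 0) - c) hf0
  have h2 : ∑ y, ((if y ∈ S then (1 : ℝ) else 0) - c) ^ 2 ≤ S.card := by
    have e : ∀ y, ((if y ∈ S then (1 : ℝ) else 0) - c) ^ 2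
        = (if y ∈ S then (1 : ℝ) else 0) * (1 - 2 * c) + c ^ 2 := by
      intro y
      split_ifs <;> ring
    rw [Finset.sum_congr rfl (fun y _ => e y), Finset.sum_add_distrib, ← Finset.sum_mul, sum_ind,
      Finset.sum_const, card_univ, nsmul_eq_mul, ← hNdef]
    have : (S.card : ℝ) * c ≥ 0 := by positivity
    nlinarith
  have h3 : ∀ x, ∑ y ∈ G.neighborFinset x, ((if y ∈ S then (1 : ℝ) else 0) - c)
      = (∑ y ∈ G.neighborFinset x, if y ∈ S then (1 : ℝ) else 0)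
        - d * S.card / Fintype.card V := by
    intro x
    rw [Finset.sum_sub_distrib, Finset.sum_const, card_neighborFinset_eq_degree, hreg x,
      nsmul_eq_mul, hcdef, hNdef]
    ring
  simp only [h3] at h
  have hl : 0 ≤ lam ^ 2 := sq_nonneg lam
  calc _ ≤ lam ^ 2 * ∑ y, ((if y ∈ S then (1 : ℝ) else 0) - c) ^ 2 := h
    _ ≤ lam ^ 2 * S.card := mul_le_mul_of_nonneg_left h2 hl

lemma spec_edge {d : ℕ} {lam : ℝ} (hreg : ∀ x, G.degree x = d)
    (hspec : ∀ f : V → ℝ, ∑ x, f x = 0 →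
      ∑ x, (∑ y ∈ G.neighborFinset x, f y) ^ 2 ≤ lam ^ 2 * ∑ x, f x ^ 2)
    (hN : 0 < Fintype.card V) (A B : Finset V)
    (hno : ∀ a ∈ A, ∀ b ∈ B, ¬ G.Adj a b) (hB : 0 < B.card) :
    (A.card : ℝ) * B.card * (d : ℝ) ^ 2 ≤ lam ^ 2 * (Fintype.card V : ℝ) ^ 2 := by
  have h := spec_ind hreg hspec hN B
  obtain ⟨N, hNdef⟩ : ∃ N : ℝ, N = Fintype.card V := ⟨_, rfl⟩
  rw [← hNdef] at h ⊢
  have hNpos : 0 < N := by rw [hNdef]; exact_mod_cast hN
  have hbpos : (0 : ℝ) < B.card := by exact_mod_cast hB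
  have h0 : ∀ x ∈ A, (∑ y ∈ G.neighborFinset x, if y ∈ B then (1 : ℝ) else 0) = 0 := by
    intro x hx
    apply Finset.sum_eq_zero
    intro y hy
    rw [if_neg]
    intro hyB
    exact hno x hx y hyB ((G.mem_neighborFinset x y).mp hy)
  have h1 : ∑ x ∈ A, ((∑ y ∈ G.neighborFinset x, if y ∈ B then (1 : ℝ) else 0)
        - d * B.card / N) ^ 2
      ≤ ∑ x, ((∑ y ∈ G.neighborFinset x, if y ∈ B then (1 : ℝ) else 0)
        - d * B.card / N) ^ 2 :=
    Finset.sum_le_sum_of_subset_of_nonneg (subset_univ A) (fun _ _ _ => sq_nonneg _)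
  have h2 : ∑ x ∈ A, ((∑ y ∈ G.neighborFinset x, if y ∈ B then (1 : ℝ) else 0)
        - d * B.card / N) ^ 2 = A.card * (d * B.card / N) ^ 2 := by
    rw [Finset.sum_congr rfl (fun x hx => by rw [h0 x hx]), Finset.sum_const, nsmul_eq_mul]
    ring
  have hh : (A.card : ℝ) * (d * B.card / N) ^ 2 ≤ lam ^ 2 * B.card := by
    rw [← h2]
    exact h1.trans h
  have e : (A.card : ℝ) * (d * B.card / N) ^ 2 * N ^ 2 = A.card * B.card * (d : ℝ) ^ 2 * B.card := by
    field_simp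
  have key : (A.card : ℝ) * B.card * (d : ℝ) ^ 2 * B.card ≤ lam ^ 2 * N ^ 2 * B.card := by
    rw [← e]
    calc (A.card : ℝ) * (d * B.card / N) ^ 2 * N ^ 2 ≤ lam ^ 2 * B.card * N ^ 2 :=
          mul_le_mul_of_nonneg_right hh (sq_nonneg N)
      _ = lam ^ 2 * N ^ 2 * B.card := by ring
  exact le_of_mul_le_mul_right key hbpos

lemma spec_expand {d : ℕ} {lam : ℝ} (hreg : ∀ x, G.degree x = d)
    (hspec : ∀ f : V → ℝ, ∑ x, f x = 0 →
      ∑ x, (∑ y ∈ G.neighborFinset x, f y) ^ 2 ≤ lam ^ 2 * ∑ x, f x ^ 2)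
    (hN : 0 < Fintype.card V) (S T : Finset V)
    (hST : ∀ x ∈ S, ∀ y, G.Adj x y → y ∈ T) :
    (d : ℝ) ^ 2 * S.card * Fintype.card V
      ≤ T.card * (lam ^ 2 * Fintype.card V + (d : ℝ) ^ 2 * S.card) := by
  have h := spec_ind hreg hspec hN S
  obtain ⟨N, hNdef⟩ : ∃ N : ℝ, N = Fintype.card V := ⟨_, rfl⟩
  rw [← hNdef] at h ⊢
  have hNpos : 0 < N := by rw [hNdef]; exact_mod_cast hN
  obtain ⟨hf, hfdef⟩ : ∃ hf : V → ℝ,
      hf = fun x => ∑ y ∈ G.neighborFinset x, if y ∈ S then (1 : ℝ) else 0 := ⟨_, rfl⟩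
  have hfx : ∀ x, (∑ y ∈ G.neighborFinset x, if y ∈ S then (1 : ℝ) else 0) = hf x := by
    intro x; rw [hfdef]
  simp only [hfx] at h
  -- total mass
  have hsum : ∑ y, hf y = d * S.card := by
    rw [hfdef, sum_nbr hreg, sum_ind]
  -- support
  have hsupp : ∀ y, y ∉ T → hf y = 0 := by
    intro y hy
    rw [hfdef]
    apply Finset.sum_eq_zero
    intro x hx
    rw [if_neg]
    intro hxS
    exact hy (hST x hxS y ((G.mem_neighborFinset y x).mp hx).symm)
  have hsumT : ∑ y ∈ T, hf y = d * S.card := by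
    rw [← hsum]
    exact Finset.sum_subset (subset_univ T) (fun y _ hy => hsupp y hy)
  have hcs : (∑ y ∈ T, hf y) ^ 2 ≤ T.card * ∑ y ∈ T, hf y ^ 2 := sq_sum_le_card_mul_sum_sq
  have hle : ∑ y ∈ T, hf y ^ 2 ≤ ∑ y, hf y ^ 2 :=
    Finset.sum_le_sum_of_subset_of_nonneg (subset_univ T) (fun _ _ _ => sq_nonneg _)
  -- expand the square in the spectral inequality
  have hexp : ∑ x, (hf x - d * S.card / N) ^ 2
      = ∑ x, hf x ^ 2 - (d * S.card) ^ 2 / N := by
    have e : ∀ x, (hf x - d * S.card / N) ^ 2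
        = hf x ^ 2 - 2 * (d * S.card / N) * hf x + (d * S.card / N) ^ 2 := by
      intro x; ring
    rw [Finset.sum_congr rfl (fun x _ => e x), Finset.sum_add_distrib, Finset.sum_sub_distrib,
      ← Finset.mul_sum, hsum, Finset.sum_const, card_univ, nsmul_eq_mul, ← hNdef]
    field_simp
    ring
  rw [hexp] at h
  have hT0 : (0 : ℝ) ≤ T.card := by positivity
  have h5 : ((d : ℝ) * S.card) ^ 2 ≤ T.card * (lam ^ 2 * S.card + (d * S.card) ^ 2 / N) := by
    rw [hsumT] at hcs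
    calc ((d : ℝ) * S.card) ^ 2 ≤ T.card * ∑ y ∈ T, hf y ^ 2 := hcs
      _ ≤ T.card * ∑ y, hf y ^ 2 := mul_le_mul_of_nonneg_left hle hT0
      _ ≤ T.card * (lam ^ 2 * S.card + (d * S.card) ^ 2 / N) :=
          mul_le_mul_of_nonneg_left (by linarith) hT0
  rcases Nat.eq_zero_or_pos S.card with h0 | hpos
  · rw [h0]
    simp only [Nat.cast_zero, mul_zero, zero_mul, add_zero]
    positivity
  · have hapos : (0 : ℝ) < S.card := by exact_mod_cast hpos
    have e1 : ((d : ℝ) * S.card) ^ 2 * N = ((d : ℝ) ^ 2 * S.card * N) * S.card := by ring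
    have e2 : (T.card : ℝ) * (lam ^ 2 * S.card + (d * S.card) ^ 2 / N) * N
        = (T.card * (lam ^ 2 * N + (d : ℝ) ^ 2 * S.card)) * S.card := by
      field_simp
    have key : ((d : ℝ) ^ 2 * S.card * N) * S.card
        ≤ (T.card * (lam ^ 2 * N + (d : ℝ) ^ 2 * S.card)) * S.card := by
      rw [← e1, ← e2]
      exact mul_le_mul_of_nonneg_right h5 hNpos.le
    exact le_of_mul_le_mul_right key hapos

lemma one_le_lam {lam : ℝ} (hlam : 0 ≤ lam)
    (hspec : ∀ f : V → ℝ, ∑ x, f x = 0 →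
      ∑ x, (∑ y ∈ G.neighborFinset x, f y) ^ 2 ≤ lam ^ 2 * ∑ x, f x ^ 2)
    {x y : V} (hxy : G.Adj x y) : 1 ≤ lam := by
  have hne : x ≠ y := G.ne_of_adj hxy
  obtain ⟨f, hfdef⟩ : ∃ f : V → ℝ,
      f = fun z => (if z = x then (1 : ℝ) else 0) - (if z = y then (1 : ℝ) else 0) := ⟨_, rfl⟩
  have hf0 : ∑ z, f z = 0 := by
    rw [hfdef, Finset.sum_sub_distrib]
    simp
  have hf2 : ∑ z, f z ^ 2 = 2 := by
    have e : ∀ z, f z ^ 2 = (if z = x then (1 : ℝ) else 0) + (if z = y then (1 : ℝ) else 0) := by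
      intro z
      rw [hfdef]
      by_cases hzx : z = x
      · have hzy : z ≠ y := fun e => hne (hzx.symm.trans e)
        simp [hzx, hne]
      · by_cases hzy : z = y
        · simp [hzy, hne.symm]
        · simp [hzx, hzy]
    rw [Finset.sum_congr rfl (fun z _ => e z), Finset.sum_add_distrib]
    simp
    norm_num
  have hAx : ∑ z ∈ G.neighborFinset x, f z = -1 := by
    rw [hfdef, Finset.sum_sub_distrib, Finset.sum_ite_eq', Finset.sum_ite_eq',
      if_neg (G.notMem_neighborFinset_self x), if_pos ((G.mem_neighborFinset x y).mpr hxy)]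
    norm_num
  have hAy : ∑ z ∈ G.neighborFinset y, f z = 1 := by
    rw [hfdef, Finset.sum_sub_distrib, Finset.sum_ite_eq', Finset.sum_ite_eq',
      if_neg (G.notMem_neighborFinset_self y), if_pos ((G.mem_neighborFinset y x).mpr hxy.symm)]
    norm_num
  have h := hspec f hf0
  have hge : ∑ z ∈ ({x, y} : Finset V), (∑ w ∈ G.neighborFinset z, f w) ^ 2
      ≤ ∑ z, (∑ w ∈ G.neighborFinset z, f w) ^ 2 :=
    Finset.sum_le_sum_of_subset_of_nonneg (subset_univ _) (fun _ _ _ => sq_nonneg _)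
  rw [Finset.sum_pair hne, hAx, hAy] at hge
  rw [hf2] at h
  nlinarith

lemma spec_X1 {d g s : ℕ} {lam : ℝ} (hreg : ∀ x, G.degree x = d)
    (hspec : ∀ f : V → ℝ, ∑ x, f x = 0 →
      ∑ x, (∑ y ∈ G.neighborFinset x, f y) ^ 2 ≤ lam ^ 2 * ∑ x, f x ^ 2)
    (hN : 0 < Fintype.card V) (hdN : d ≤ Fintype.card V) (hd : 0 < d)
    (hlam1 : 1 ≤ lam) (hg : 1 ≤ g) (hgap : 12 * (g : ℝ) * lam ≤ d)
    (hs : (s : ℝ) * d ≤ lam * Fintype.card V + d)
    (S T : Finset V) (hS : S.card ≤ s) (hST : ∀ x ∈ S, ∀ y, G.Adj x y → y ∈ T) :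
    4 * g * S.card ≤ T.card := by
  have h := spec_expand hreg hspec hN S T hST
  obtain ⟨N, hNdef⟩ : ∃ N : ℝ, N = Fintype.card V := ⟨_, rfl⟩
  rw [← hNdef] at h hs
  have hNpos : 0 < N := by rw [hNdef]; exact_mod_cast hN
  have hdN' : (d : ℝ) ≤ N := by rw [hNdef]; exact_mod_cast hdN
  have hdpos : (0 : ℝ) < d := by exact_mod_cast hd
  have hg1 : (1 : ℝ) ≤ g := by exact_mod_cast hg
  have hlamd : lam ≤ d := by nlinarith
  have ha : (S.card : ℝ) ≤ s := by exact_mod_cast hS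
  have ha0 : (0 : ℝ) ≤ S.card := by positivity
  have ht0 : (0 : ℝ) ≤ T.card := by positivity
  -- d * a ≤ lam * N + d
  have h1 : (d : ℝ) * S.card ≤ lam * N + d := by nlinarith
  -- the bracket is at most 3 d lam N
  have h2 : lam ^ 2 * N + (d : ℝ) ^ 2 * S.card ≤ 3 * d * lam * N := by
    have e1 : (d : ℝ) ^ 2 * S.card ≤ d * (lam * N + d) := by nlinarith
    have e2 : lam ^ 2 * N ≤ d * lam * N := by nlinarith [mul_nonneg (mul_nonneg (by linarith : (0:ℝ) ≤ lam) hNpos.le) (by linarith : (0:ℝ) ≤ d - lam)]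
    have e3 : (d : ℝ) * d ≤ d * lam * N := by nlinarith [mul_nonneg hdpos.le (by linarith : (0:ℝ) ≤ lam - 1), mul_nonneg (mul_nonneg hdpos.le (by linarith : (0:ℝ) ≤ lam)) (by linarith : (0:ℝ) ≤ N - d)]
    nlinarith
  have h3 : (d : ℝ) ^ 2 * S.card * N ≤ T.card * (3 * d * lam * N) :=
    h.trans (mul_le_mul_of_nonneg_left h2 ht0)
  have h4 : (d : ℝ) * S.card ≤ 3 * lam * T.card := by
    have e : ((d : ℝ) * S.card) * (d * N) ≤ (3 * lam * T.card) * (d * N) := by nlinarith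
    exact le_of_mul_le_mul_right e (by positivity)
  have h5 : 12 * (g : ℝ) * lam * S.card ≤ 3 * lam * T.card :=
    (mul_le_mul_of_nonneg_right hgap ha0).trans h4
  have h6 : (4 * (g : ℝ) * S.card) * (3 * lam) ≤ (T.card : ℝ) * (3 * lam) := by nlinarith
  have h7 : 4 * (g : ℝ) * S.card ≤ T.card := le_of_mul_le_mul_right h6 (by linarith)
  exact_mod_cast h7

theorem expander_ratio {d g : ℕ} {lam : ℝ} (hd : 0 < d) (hg : 2 ≤ g) (hlam : 0 ≤ lam)
    (hreg : ∀ x, G.degree x = d)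
    (hspec : ∀ f : V → ℝ, ∑ x, f x = 0 →
      ∑ x, (∑ y ∈ G.neighborFinset x, f y) ^ 2 ≤ lam ^ 2 * ∑ x, f x ^ 2)
    (hgap : 12 * (g : ℝ) * lam ≤ d) :
    Nat.card {M : G.Subgraph // M.IsMatching ∧ M.vertsᶜ.ncard = 2}
      ≤ Fintype.card V * (d + 1) ^ (2 * Nat.log g (Fintype.card V) + 2)
        * Nat.card {M : G.Subgraph // M.IsPerfectMatching} := by
  apply ratio_bound2 d _ hd (fun x => (hreg x).le)
  intro τ u v hτ
  have hN : 0 < Fintype.card V := Fintype.card_pos_iff.mpr ⟨u⟩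
  have hdN : d ≤ Fintype.card V := by
    rw [← hreg u]
    exact (G.degree_lt_card_verts u).le
  -- an edge
  have hnb : (G.neighborFinset u).Nonempty := by
    rw [← Finset.card_pos, G.card_neighborFinset_eq_degree, hreg u]
    exact hd
  obtain ⟨w, hw⟩ := hnb
  have huw : G.Adj u w := (G.mem_neighborFinset u w).mp hw
  have hlam1 : 1 ≤ lam := one_le_lam hlam hspec huw
  have hdpos : (0 : ℝ) < d := by exact_mod_cast hd
  have hNpos : (0 : ℝ) < Fintype.card V := by exact_mod_cast hN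
  obtain ⟨s, hsdef⟩ : ∃ s : ℕ, s = ⌊lam * Fintype.card V / d⌋₊ + 1 := ⟨_, rfl⟩
  have hq0 : 0 ≤ lam * Fintype.card V / d := by positivity
  have hs1 : (s : ℝ) ≤ lam * Fintype.card V / d + 1 := by
    rw [hsdef]
    push_cast
    linarith [Nat.floor_le hq0]
  have hs2 : lam * Fintype.card V / d < s := by
    rw [hsdef]
    push_cast
    exact Nat.lt_floor_add_one _
  have hs1' : (s : ℝ) * d ≤ lam * Fintype.card V + d := by
    have := mul_le_mul_of_nonneg_right hs1 hdpos.le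
    calc (s : ℝ) * d ≤ (lam * Fintype.card V / d + 1) * d := this
      _ = lam * Fintype.card V + d := by field_simp
  have hs2' : lam * Fintype.card V < s * d := by
    rwa [div_lt_iff₀ hdpos] at hs2
  have hX1 : ∀ S T : Finset V, S.card ≤ s → (∀ x ∈ S, ∀ y, G.Adj x y → y ∈ T) →
      4 * g * S.card ≤ T.card :=
    fun S T hS hST =>
      spec_X1 hreg hspec hN hdN hd hlam1 (by omega) hgap hs1' S T hS hST
  have hX2 : ∀ A B : Finset V, s ≤ A.card → s ≤ B.card → ∃ a ∈ A, ∃ b ∈ B, G.Adj a b := by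
    intro A B hA hB
    by_contra hcon
    push Not at hcon
    have hspos : 0 < s := by rw [hsdef]; omega
    have h := spec_edge hreg hspec hN A B hcon (by omega)
    have hA' : (s : ℝ) ≤ A.card := by exact_mod_cast hA
    have hB' : (s : ℝ) ≤ B.card := by exact_mod_cast hB
    have hs0 : (0 : ℝ) < s := by exact_mod_cast hspos
    have h1 : (s : ℝ) * s ≤ (A.card : ℝ) * B.card := by nlinarith
    have h2 : (lam * Fintype.card V) ^ 2 < ((s : ℝ) * d) ^ 2 := by
      have : 0 ≤ lam * Fintype.card V := by positivity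
      nlinarith
    have h3 : ((s : ℝ) * d) ^ 2 ≤ (A.card : ℝ) * B.card * (d : ℝ) ^ 2 := by
      have : (0 : ℝ) ≤ (d : ℝ) ^ 2 := sq_nonneg _
      nlinarith
    nlinarith
  exact exists_short_aug hτ hg hX1 hX2

end Vale.Agent.H83.Matchings
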