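import Mathlib

namespace Vale.Agent.H83.Matchings

variable {V : Type*} (G : SimpleGraph V)

/-- `σ` is the partner map of a perfect matching of `G` -/
structure IsPM (σ : V → V) : Prop where
  invol : ∀ x, σ (σ x) = x
  adj : ∀ x, G.Adj x (σ x)

/-- `τ` is the partner map of a near-perfect matching of `G` with uncovered vertices `u`, `v` -/
structure IsNPM (τ : V → V) (u v : V) : Prop where
  invol : ∀ x, τ (τ x) = x
  fix_u : τ u = u
  fix_v : τ v = v
  ne : u ≠ v
  adj : ∀ x, x ≠ u → x ≠ v → G.Adj x (τ x)

variable {G}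

lemma IsPM.inj {σ : V → V} (h : IsPM G σ) {x y : V} (hxy : σ x = σ y) : x = y := by
  rw [← h.invol x, ← h.invol y, hxy]

lemma IsPM.ne {σ : V → V} (h : IsPM G σ) (x : V) : σ x ≠ x :=
  fun hx => G.loopless.irrefl x (by simpa [hx] using h.adj x)

lemma IsNPM.inj {τ : V → V} {u v : V} (h : IsNPM G τ u v) {x y : V} (hxy : τ x = τ y) : x = y := by
  rw [← h.invol x, ← h.invol y, hxy]

lemma IsNPM.eq_of_fixed {τ : V → V} {u v : V} (h : IsNPM G τ u v) {x : V} (hx : τ x = x) :
    x = u ∨ x = v := by
  by_contra hcon
  push Not at hcon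
  have := h.adj x hcon.1 hcon.2
  rw [hx] at this
  exact G.loopless.irrefl x this

lemma IsNPM.apply_eq_u {τ : V → V} {u v : V} (h : IsNPM G τ u v) {x : V} (hx : τ x = u) :
    x = u := by
  have := h.invol x
  rw [hx, h.fix_u] at this
  exact this.symm

lemma IsNPM.apply_eq_v {τ : V → V} {u v : V} (h : IsNPM G τ u v) {x : V} (hx : τ x = v) :
    x = v := by
  have := h.invol x
  rw [hx, h.fix_v] at this
  exact this.symm

variable (G)

/-- adjacency conditions along an alternating chain that starts at `c` and visits the list -/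
def Link (τ : V → V) : V → List V → Prop
  | _, [] => True
  | c, a :: rest => G.Adj c a ∧ Link τ (τ a) rest

/-- the last vertex reached by the alternating chain -/
def cur (τ : V → V) : V → List V → V
  | c, [] => c
  | _, a :: rest => cur τ (τ a) rest

variable {G}

lemma link_append (τ : V → V) (c : V) (P R : List V) :
    Link G τ c (P ++ R) ↔ Link G τ c P ∧ Link G τ (cur τ c P) R := by
  induction P generalizing c with
  | nil => simp [Link, cur]
  | cons a P ih => simp [Link, cur, ih, and_assoc]

lemma cur_append (τ : V → V) (c : V) (P R : List V) :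
    cur τ c (P ++ R) = cur τ (cur τ c P) R := by
  induction P generalizing c with
  | nil => simp [cur]
  | cons a P ih => simp [cur, ih]

lemma cur_mem (τ : V → V) (c : V) (P : List V) :
    cur τ c P = c ∨ cur τ c P ∈ P.map τ := by
  induction P generalizing c with
  | nil => simp [cur]
  | cons a P ih =>
    rcases ih (τ a) with h | h
    · right; simp [cur, h]
    · right; simp only [cur, List.map_cons, List.mem_cons]; right; exact h

/-- `as` is the list of entry vertices of an augmenting path for the near-perfect matching `τ` -/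
structure IsAug (G : SimpleGraph V) (τ : V → V) (u v : V) (as : List V) : Prop where
  link : Link G τ u as
  last : G.Adj (cur τ u as) v
  nodup : as.Nodup
  disj : ∀ a ∈ as, ∀ a' ∈ as, a ≠ τ a'

section existence

/-- partial alternating chain that follows the perfect matching `σ` from the uncovered vertex `u` -/
structure PC (G : SimpleGraph V) (σ τ : V → V) (u : V) (as : List V) : Prop where
  link : Link G τ u as
  nodup : as.Nodup
  disj : ∀ a ∈ as, ∀ a' ∈ as, a ≠ τ a'
  j1 : ∀ a ∈ as, σ a ≠ cur τ u as
  j2 : ∀ a ∈ as, σ a = u ∨ σ a ∈ as.map τ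
  j3 : ∀ b, (b = u ∨ b ∈ as.map τ) → b = cur τ u as ∨ σ b ∈ as

lemma PC.nil (σ τ : V → V) (u : V) : PC G σ τ u [] where
  link := trivial
  nodup := List.nodup_nil
  disj := by simp
  j1 := by simp
  j2 := by simp
  j3 := by
    intro b hb
    left
    simpa [cur] using hb

lemma PC.extend {σ τ : V → V} {u v : V} {as : List V} (hσ : IsPM G σ) (hτ : IsNPM G τ u v)
    (h : PC G σ τ u as) (hv : σ (cur τ u as) ≠ v) :
    PC G σ τ u (as ++ [σ (cur τ u as)]) := by
  set c := cur τ u as with hc
  have hcB : c = u ∨ c ∈ as.map τ := cur_mem τ u as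
  have hu_notin : u ∉ as := by
    intro hu
    exact h.disj u hu u hu hτ.fix_u.symm
  -- the new vertex is not an earlier entry vertex
  have hnew_notin : σ c ∉ as := by
    intro hmem
    exact h.j1 (σ c) hmem (hσ.invol c)
  -- the new vertex is not an earlier exit vertex
  have hnew_notB : ∀ b, (b = u ∨ b ∈ as.map τ) → σ c ≠ b := by
    intro b hb heq
    rcases h.j3 b hb with hbc | hmem
    · rw [hbc] at heq
      exact hσ.ne c heq
    · rw [← heq, hσ.invol c] at hmem
      rcases hcB with hcu | hcm
      · rw [hcu] at hmem; exact hu_notin hmem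
      · obtain ⟨a', ha', hca'⟩ := List.mem_map.mp hcm
        exact h.disj c hmem a' ha' hca'.symm
  have hnew_ne_u : σ c ≠ u := hnew_notB u (Or.inl rfl)
  have hnew_notfix : τ (σ c) ≠ σ c := by
    intro hfix
    rcases hτ.eq_of_fixed hfix with h1 | h1
    · exact hnew_ne_u h1
    · exact hv h1
  have hτnew : ∀ a ∈ as, τ a ≠ σ c := by
    intro a ha heq
    exact hnew_notB (τ a) (Or.inr (List.mem_map_of_mem ha)) heq.symm
  have hcur' : cur τ u (as ++ [σ c]) = τ (σ c) := by
    rw [cur_append]; rfl
  refine ⟨?_, ?_, ?_, ?_, ?_, ?_⟩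
  · rw [link_append]
    exact ⟨h.link, hσ.adj c, trivial⟩
  · rw [List.nodup_append]
    refine ⟨h.nodup, List.nodup_singleton _, ?_⟩
    intro a ha b hb
    rw [List.mem_singleton] at hb
    rw [hb]
    intro hab
    exact hnew_notin (hab ▸ ha)
  · intro a ha a' ha'
    rw [List.mem_append, List.mem_singleton] at ha ha'
    rcases ha with ha | ha <;> rcases ha' with ha' | ha'
    · exact h.disj a ha a' ha'
    · rw [ha']
      intro heq
      apply hτnew a ha
      rw [heq, hτ.invol]
    · rw [ha]
      exact fun heq => hτnew a' ha' heq.symm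
    · rw [ha, ha']
      exact fun heq => hnew_notfix heq.symm
  · intro a ha
    rw [hcur']
    rw [List.mem_append, List.mem_singleton] at ha
    rcases ha with ha | ha
    · intro heq
      have h1 : τ (σ a) = σ c := by rw [heq, hτ.invol]
      rcases h.j2 a ha with h2 | h2
      · rw [h2, hτ.fix_u] at h1
        exact hnew_ne_u h1.symm
      · obtain ⟨a', ha', h3⟩ := List.mem_map.mp h2
        rw [← h3, hτ.invol] at h1
        exact hnew_notin (h1 ▸ ha')
    · rw [ha, hσ.invol]
      intro heq
      have h1 : τ c = σ c := by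
        have h0 := congrArg τ heq
        rw [hτ.invol] at h0
        exact h0
      rcases hcB with hcu | hcm
      · rw [hcu, hτ.fix_u] at h1
        exact hnew_ne_u (by rw [hcu]; exact h1.symm)
      · obtain ⟨a', ha', h3⟩ := List.mem_map.mp hcm
        rw [← h3, hτ.invol] at h1
        exact hnew_notin (by rw [← h3, ← h1]; exact ha')
  · intro a ha
    rw [List.mem_append, List.mem_singleton] at ha
    rw [List.map_append, List.mem_append]
    rcases ha with ha | ha
    · rcases h.j2 a ha with h2 | h2
      · exact Or.inl h2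
      · exact Or.inr (Or.inl h2)
    · rw [ha, hσ.invol]
      rcases hcB with hcu | hcm
      · exact Or.inl hcu
      · exact Or.inr (Or.inl hcm)
  · intro b hb
    rw [hcur']
    rw [List.map_append, List.mem_append, List.map_singleton, List.mem_singleton] at hb
    rw [List.mem_append, List.mem_singleton]
    have hold : (b = u ∨ b ∈ as.map τ) → b = τ (σ c) ∨ σ b ∈ as ∨ σ b = σ c := by
      intro hb'
      rcases h.j3 b hb' with h1 | h1
      · right; right; rw [h1]
      · right; left; exact h1
    rcases hb with hb | hb | hb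
    · exact hold (Or.inl hb)
    · exact hold (Or.inr hb)
    · exact Or.inl hb

theorem exists_aug [Fintype V] {σ τ : V → V} {u v : V} (hσ : IsPM G σ) (hτ : IsNPM G τ u v) :
    ∃ as, IsAug G τ u v as := by
  by_contra hno
  push Not at hno
  have key : ∀ as, PC G σ τ u as → σ (cur τ u as) ≠ v := by
    intro as hpc heq
    apply hno as
    refine ⟨hpc.link, ?_, hpc.nodup, hpc.disj⟩
    rw [← heq]
    exact hσ.adj _
  have hall : ∀ m : ℕ, ∃ as, PC G σ τ u as ∧ as.length = m := by
    intro m
    induction m with
    | zero => exact ⟨[], PC.nil σ τ u, rfl⟩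
    | succ m ih =>
      obtain ⟨as, hpc, hlen⟩ := ih
      exact ⟨as ++ [σ (cur τ u as)], hpc.extend hσ hτ (key as hpc), by simp [hlen]⟩
  obtain ⟨as, hpc, hlen⟩ := hall (Fintype.card V + 1)
  have := hpc.nodup.length_le_card
  omega

end existence

section shortcut

lemma cur_cons_append (τ : V → V) (c : V) (L : List V) (r : V) (R : List V) :
    cur τ c (L ++ r :: R) = cur τ (τ r) R := by
  rw [cur_append]; rfl

theorem IsAug.shortcut {τ : V → V} {u v : V} (hτ : IsNPM G τ u v) {P Q S R : List V} {x : V}
    (h : IsAug G τ u v (P ++ Q ++ [x] ++ S ++ R))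
    (h1 : G.Adj (cur τ u P) (τ x)) (h2 : G.Adj x (R.headD v)) :
    IsAug G τ u v (P ++ [τ x] ++ R) := by
  have hold : P ++ Q ++ [x] ++ S ++ R = (P ++ Q) ++ x :: (S ++ R) := by simp
  have hsub : (P ++ R).Sublist (P ++ Q ++ [x] ++ S ++ R) := by
    have e : P ++ Q ++ [x] ++ S ++ R = P ++ ((Q ++ [x] ++ S) ++ R) := by simp
    rw [e]
    exact List.Sublist.append (List.Sublist.refl P) (List.sublist_append_right _ _)
  have hPR : (P ++ R).Nodup := h.nodup.sublist hsub
  have hmemPR : ∀ a ∈ P ++ R, a ∈ P ++ Q ++ [x] ++ S ++ R := fun a ha => hsub.subset ha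
  have hxmem : x ∈ P ++ Q ++ [x] ++ S ++ R := by simp
  have hx_notin : x ∉ P ++ R := by
    have hnd := h.nodup
    rw [hold, List.nodup_middle, List.nodup_cons] at hnd
    intro hx
    apply hnd.1
    rw [List.mem_append] at hx ⊢
    rcases hx with hx | hx
    · exact Or.inl (List.mem_append_left _ hx)
    · exact Or.inr (List.mem_append_right _ hx)
  have hτx_notin : τ x ∉ P ++ R := fun hmem => h.disj (τ x) (hmemPR _ hmem) x hxmem rfl
  have hnew : P ++ [τ x] ++ R = P ++ τ x :: R := by simp
  have hlink := h.link
  rw [hold, link_append, link_append] at hlink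
  obtain ⟨⟨hlP, _⟩, hlR⟩ := hlink
  refine ⟨?_, ?_, ?_, ?_⟩
  · rw [hnew, link_append]
    refine ⟨hlP, h1, ?_⟩
    rw [hτ.invol]
    cases R with
    | nil => trivial
    | cons r R' =>
      have hlR' : Link G τ (cur τ u (P ++ Q)) (x :: (S ++ r :: R')) := hlR
      have h3 : Link G τ (τ x) (S ++ r :: R') := hlR'.2
      rw [link_append] at h3
      exact ⟨h2, h3.2.2⟩
  · cases R with
    | nil =>
      rw [hnew, cur_cons_append, hτ.invol]
      exact h2
    | cons r R' =>
      have hlast := h.last
      have e1 : P ++ Q ++ [x] ++ S ++ r :: R' = (P ++ Q ++ [x] ++ S) ++ r :: R' := by simp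
      have e2 : P ++ [τ x] ++ r :: R' = (P ++ [τ x]) ++ r :: R' := by simp
      rw [e1, cur_cons_append] at hlast
      rw [e2, cur_cons_append]
      exact hlast
  · rw [hnew, List.nodup_middle, List.nodup_cons]
    exact ⟨hτx_notin, hPR⟩
  · have hmem_new : ∀ a, a ∈ P ++ [τ x] ++ R → a = τ x ∨ a ∈ P ++ R := by
      intro a ha
      simp only [List.mem_append, List.mem_singleton] at ha ⊢
      tauto
    intro a ha a' ha'
    rcases hmem_new a ha with ha | ha <;> rcases hmem_new a' ha' with ha' | ha'
    · rw [ha, ha', hτ.invol]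
      exact fun heq => h.disj x hxmem x hxmem heq.symm
    · rw [ha]
      intro heq
      have := hτ.inj heq
      rw [this] at hx_notin
      exact hx_notin ha'
    · rw [ha', hτ.invol]
      intro heq
      rw [heq] at ha
      exact hx_notin ha
    · exact h.disj a (hmemPR a ha) a' (hmemPR a' ha')

lemma cur_take_succ (τ : V → V) (c : V) (as : List V) (i : ℕ) (hi : i < as.length) :
    cur τ c (as.take (i + 1)) = τ as[i] := by
  rw [List.take_succ_eq_append_getElem hi, cur_append]
  rfl

theorem IsAug.shortcut_idx {τ : V → V} {u v : V} (hτ : IsNPM G τ u v) {as : List V}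
    (h : IsAug G τ u v as) (p l r : ℕ) (hpl : p ≤ l) (hl : l < as.length) (hlr : l + 2 ≤ r)
    (hr : r ≤ as.length)
    (h1 : G.Adj (cur τ u (as.take p)) (τ as[l])) (h2 : G.Adj as[l] ((as.drop r).headD v)) :
    ∃ as', IsAug G τ u v as' ∧ as'.length < as.length := by
  have e : as = as.take p ++ (as.take l).drop p ++ [as[l]] ++ (as.drop (l + 1)).take (r - l - 1)
      ++ as.drop r := by
    have e1 : as.take p ++ (as.take l).drop p = as.take l := by
      have : as.take p = (as.take l).take p := by
        rw [List.take_take, min_eq_left hpl]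
      rw [this, List.take_append_drop]
    have e2 : (as.drop (l + 1)).take (r - l - 1) ++ as.drop r = as.drop (l + 1) := by
      have : as.drop r = (as.drop (l + 1)).drop (r - l - 1) := by
        rw [List.drop_drop]
        congr 1
        omega
      rw [this, List.take_append_drop]
    rw [e1, List.append_assoc, e2, List.append_assoc, List.singleton_append,
      ← List.drop_eq_getElem_cons hl, List.take_append_drop]
  rw [e] at h
  have hnew := h.shortcut hτ h1 h2
  refine ⟨_, hnew, ?_⟩
  simp only [List.length_append, List.length_take, List.length_drop, List.length_singleton]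
  omega

end shortcut

section bound

lemma indep_image {ι : Type*} [LinearOrder ι] [DecidableEq V] (s : Finset ι) (f : ι → V)
    (hf : ∀ i ∈ s, ∀ j ∈ s, i < j → ¬ G.Adj (f i) (f j)) :
    G.IsIndepSet (↑(s.image f) : Set V) := by
  intro x hx y hy hxy
  rw [Finset.mem_coe, Finset.mem_image] at hx hy
  obtain ⟨i, hi, rfl⟩ := hx
  obtain ⟨j, hj, rfl⟩ := hy
  rcases lt_trichotomy i j with hij | hij | hij
  · exact hf i hi j hj hij
  · exact absurd (by rw [hij]) hxy
  · exact fun hadj => hf j hj i hi hij hadj.symm

lemma indep_insert [DecidableEq V] (w : V) (S : Finset V) (hS : G.IsIndepSet (↑S : Set V))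
    (hw : ∀ y ∈ S, ¬ G.Adj w y) : G.IsIndepSet (↑(insert w S) : Set V) := by
  intro x hx y hy hxy
  rw [Finset.mem_coe, Finset.mem_insert] at hx hy
  rcases hx with rfl | hx <;> rcases hy with rfl | hy
  · exact absurd rfl hxy
  · exact hw y hy
  · exact fun hadj => hw x hx hadj.symm
  · exact hS hx hy hxy

theorem IsAug.length_bound [DecidableEq V] {τ : V → V} {u v : V} (hτ : IsNPM G τ u v)
    {as : List V} (h : IsAug G τ u v as)
    (hmin : ∀ as', IsAug G τ u v as' → as.length ≤ as'.length)
    (k : ℕ) (hα : ∀ s : Finset V, G.IsIndepSet (↑s : Set V) → s.card ≤ k) :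
    as.length + 2 ≤ 3 * k := by
  classical
  set ℓ := as.length with hℓ
  obtain ⟨A, hAdef⟩ : ∃ A : Fin ℓ → Prop, ∀ l, A l ↔
      ∀ r, l.val + 2 ≤ r → r ≤ ℓ → ¬ G.Adj (as.get l) ((as.drop r).headD v) :=
    ⟨_, fun l => Iff.rfl⟩
  obtain ⟨B, hBdef⟩ : ∃ B : Fin ℓ → Prop, ∀ l, B l ↔
      ∀ p, p ≤ l.val → ¬ G.Adj (cur τ u (as.take p)) (τ (as.get l)) :=
    ⟨_, fun l => Iff.rfl⟩
  have hdich : ∀ l, ¬ A l → B l := by
    intro l hA
    rw [hBdef]
    intro p hp hadj
    rw [hAdef] at hA
    push Not at hA
    obtain ⟨r, hr1, hr2, hr3⟩ := hA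
    obtain ⟨as', has', hlen⟩ := h.shortcut_idx hτ p l.val r hp l.isLt hr1 hr2 hadj hr3
    have := hmin as' has'
    omega
  have hBu : ∀ l, B l → ¬ G.Adj u (τ (as.get l)) := by
    intro l hB
    have := (hBdef l).mp hB 0 (Nat.zero_le _)
    simpa [cur] using this
  have hBB : ∀ i l : Fin ℓ, i < l → B l → ¬ G.Adj (τ (as.get i)) (τ (as.get l)) := by
    intro i l hil hB
    have := (hBdef l).mp hB (i.val + 1) hil
    rwa [cur_take_succ τ u as i.val i.isLt] at this
  have hAv : ∀ l : Fin ℓ, l.val + 2 ≤ ℓ → A l → ¬ G.Adj (as.get l) v := by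
    intro l hl hA
    have := (hAdef l).mp hA ℓ hl le_rfl
    simpa [hℓ] using this
  have hAA : ∀ l l' : Fin ℓ, l.val + 2 ≤ l'.val → A l → ¬ G.Adj (as.get l) (as.get l') := by
    intro l l' hll hA
    have := (hAdef l).mp hA l'.val hll l'.isLt.le
    rw [List.drop_eq_getElem_cons l'.isLt] at this
    exact this
  have hmem : ∀ l : Fin ℓ, as.get l ∈ as := fun l => List.get_mem as l
  have hnotfix : ∀ l : Fin ℓ, as.get l ≠ τ (as.get l) := fun l => h.disj _ (hmem l) _ (hmem l)
  have hget_inj : Function.Injective (fun l : Fin ℓ => as.get l) := by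
    intro i j hij
    exact (List.Nodup.get_inj_iff h.nodup).mp hij
  have hτget_inj : Function.Injective (fun l : Fin ℓ => τ (as.get l)) := by
    intro i j hij
    exact hget_inj (hτ.inj hij)
  -- the three independent sets
  set FB : Finset (Fin ℓ) := Finset.univ.filter (fun l => ¬ A l) with hFB
  set FA0 : Finset (Fin ℓ) := Finset.univ.filter (fun l => A l ∧ (l.val + ℓ) % 2 = 0) with hFA0
  set FA1 : Finset (Fin ℓ) := Finset.univ.filter (fun l => A l ∧ (l.val + ℓ) % 2 = 1) with hFA1
  have hcount : FB.card + FA0.card + FA1.card = ℓ := by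
    have h1 : (Finset.univ.filter A).card + FB.card = ℓ := by
      have h0 := Finset.card_filter_add_card_filter_not (s := (Finset.univ : Finset (Fin ℓ))) A
      simp only [Finset.card_univ, Fintype.card_fin] at h0
      rw [hFB]
      convert h0
    have h2 : FA0.card + FA1.card = (Finset.univ.filter A).card := by
      have h0 := Finset.card_filter_add_card_filter_not
        (s := (Finset.univ : Finset (Fin ℓ)).filter A) (fun l : Fin ℓ => (l.val + ℓ) % 2 = 0)
      rw [Finset.filter_filter, Finset.filter_filter] at h0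
      have h3 : (Finset.univ.filter (fun l : Fin ℓ => A l ∧ ¬ (l.val + ℓ) % 2 = 0)) = FA1 := by
        rw [hFA1]
        apply Finset.filter_congr
        intro l _
        have : (¬ (l.val + ℓ) % 2 = 0) ↔ (l.val + ℓ) % 2 = 1 := by omega
        rw [this]
      rw [hFA0, ← h3]
      convert h0
    omega
  -- B-type set
  have hB_bound : FB.card + 1 ≤ k := by
    have hind : G.IsIndepSet (↑(insert u (FB.image (fun l => τ (as.get l)))) : Set V) := by
      apply indep_insert
      · apply indep_image
        intro i hi j hj hij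
        have hBj : B j := hdich j (Finset.mem_filter.mp hj).2
        exact hBB i j hij hBj
      · intro y hy
        rw [Finset.mem_image] at hy
        obtain ⟨l, hl, rfl⟩ := hy
        exact hBu l (hdich l (Finset.mem_filter.mp hl).2)
    have hcard := hα _ hind
    rw [Finset.card_insert_of_notMem, Finset.card_image_of_injective _ hτget_inj] at hcard
    · exact hcard
    · intro hu
      rw [Finset.mem_image] at hu
      obtain ⟨l, _, hl⟩ := hu
      have h1 := hτ.apply_eq_u hl
      apply hnotfix l
      rw [hl, h1]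
  -- A-type set with the parity of ℓ, together with v
  have hA0_bound : FA0.card + 1 ≤ k := by
    have hind : G.IsIndepSet (↑(insert v (FA0.image (fun l => as.get l))) : Set V) := by
      apply indep_insert
      · apply indep_image
        intro i hi j hj hij
        have hi' := (Finset.mem_filter.mp hi).2
        have hj' := (Finset.mem_filter.mp hj).2
        have hij' : i.val < j.val := hij
        exact hAA i j (by omega) hi'.1
      · intro y hy
        rw [Finset.mem_image] at hy
        obtain ⟨l, hl, rfl⟩ := hy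
        have hl' := (Finset.mem_filter.mp hl).2
        have hlt := l.isLt
        exact fun hadj => hAv l (by omega) hl'.1 hadj.symm
    have hcard := hα _ hind
    rw [Finset.card_insert_of_notMem, Finset.card_image_of_injective _ hget_inj] at hcard
    · exact hcard
    · intro hv
      rw [Finset.mem_image] at hv
      obtain ⟨l, _, hl⟩ := hv
      apply hnotfix l
      rw [hl, hτ.fix_v]
  -- A-type set with the other parity
  have hA1_bound : FA1.card ≤ k := by
    have hind : G.IsIndepSet (↑(FA1.image (fun l => as.get l)) : Set V) := by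
      apply indep_image
      intro i hi j hj hij
      have hi' := (Finset.mem_filter.mp hi).2
      have hj' := (Finset.mem_filter.mp hj).2
      have hij' : i.val < j.val := hij
      exact hAA i j (by omega) hi'.1
    have hcard := hα _ hind
    rwa [Finset.card_image_of_injective _ hget_inj] at hcard
  omega

end bound

section augment

/-- the perfect matching `σ` follows the chain: the partner of the current vertex is the next
entry vertex, and the partner of the last exit vertex is `v` -/
def Follow (σ τ : V → V) (v : V) : V → List V → Prop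
  | c, [] => σ c = v
  | c, a :: rest => σ c = a ∧ Follow σ τ v (τ a) rest

lemma link_congr {τ τ' : V → V} (L : List V) (hL : ∀ a ∈ L, τ' a = τ a) (c : V) :
    Link G τ' c L ↔ Link G τ c L := by
  induction L generalizing c with
  | nil => simp [Link]
  | cons a L ih =>
    simp only [Link]
    rw [hL a (List.mem_cons_self), ih (fun a' ha' => hL a' (List.mem_cons_of_mem _ ha'))]

lemma cur_congr {τ τ' : V → V} (L : List V) (hL : ∀ a ∈ L, τ' a = τ a) (c : V) :
    cur τ' c L = cur τ c L := by
  induction L generalizing c with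
  | nil => simp [cur]
  | cons a L ih =>
    simp only [cur]
    rw [hL a (List.mem_cons_self), ih (fun a' ha' => hL a' (List.mem_cons_of_mem _ ha'))]

lemma follow_congr {σ τ τ' : V → V} {v : V} (L : List V) (hL : ∀ a ∈ L, τ' a = τ a) (c : V) :
    Follow σ τ' v c L ↔ Follow σ τ v c L := by
  induction L generalizing c with
  | nil => simp [Follow]
  | cons a L ih =>
    simp only [Follow]
    rw [hL a (List.mem_cons_self), ih (fun a' ha' => hL a' (List.mem_cons_of_mem _ ha'))]

theorem exists_augment [DecidableEq V] (as : List V) :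
    ∀ (τ : V → V) (u v : V), IsNPM G τ u v → IsAug G τ u v as →
      ∃ σ, IsPM G σ ∧ Follow σ τ v u as ∧
        ∀ x, x ≠ u → x ≠ v → x ∉ as → x ∉ as.map τ → σ x = τ x := by
  induction as with
  | nil =>
    intro τ u v hτ h
    have hadj : G.Adj u v := h.last
    refine ⟨fun x => if x = u then v else if x = v then u else τ x, ⟨?_, ?_⟩, ?_, ?_⟩
    · intro x
      by_cases hxu : x = u
      · subst hxu
        simp [hτ.ne.symm]
      · by_cases hxv : x = v
        · subst hxv
          simp [hxu]
        · have h1 : τ x ≠ u := fun h1 => hxu (hτ.apply_eq_u h1)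
          have h2 : τ x ≠ v := fun h2 => hxv (hτ.apply_eq_v h2)
          simp [hxu, hxv, h1, h2, hτ.invol]
    · intro x
      by_cases hxu : x = u
      · subst hxu
        simpa using hadj
      · by_cases hxv : x = v
        · subst hxv
          simpa [hxu] using hadj.symm
        · simpa [hxu, hxv] using hτ.adj x hxu hxv
    · simp [Follow]
    · intro x hxu hxv _ _
      simp [hxu, hxv]
  | cons a rest ih =>
    intro τ u v hτ h
    have hamem : a ∈ a :: rest := List.mem_cons_self
    have ha_notfix : a ≠ τ a := h.disj a hamem a hamem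
    have hau : a ≠ u := fun hau => ha_notfix (by rw [hau, hτ.fix_u])
    have hav : a ≠ v := fun hav => ha_notfix (by rw [hav, hτ.fix_v])
    have hbu : τ a ≠ u := fun hb => hau (hτ.apply_eq_u hb)
    have hbv : τ a ≠ v := fun hb => hav (hτ.apply_eq_v hb)
    have hlink : G.Adj u a ∧ Link G τ (τ a) rest := h.link
    have hnd := List.nodup_cons.mp h.nodup
    -- facts about the remaining entry vertices
    have hrest : ∀ a' ∈ rest, a' ≠ u ∧ a' ≠ v ∧ a' ≠ a ∧ a' ≠ τ a ∧ τ a' ≠ u ∧ τ a' ≠ a := by
      intro a' ha'
      have ha'mem : a' ∈ a :: rest := List.mem_cons_of_mem _ ha'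
      have hnf : a' ≠ τ a' := h.disj a' ha'mem a' ha'mem
      have h1 : a' ≠ u := fun h1 => hnf (by rw [h1, hτ.fix_u])
      have h2 : a' ≠ v := fun h2 => hnf (by rw [h2, hτ.fix_v])
      refine ⟨h1, h2, ?_, h.disj a' ha'mem a hamem, fun h3 => h1 (hτ.apply_eq_u h3),
        fun h3 => h.disj a hamem a' ha'mem h3.symm⟩
      intro h3
      rw [h3] at ha'
      exact hnd.1 ha'
    -- slide the hole from u to the exit vertex of a
    set τ1 : V → V := fun x => if x = u then a else if x = a then u else if x = τ a then τ a
      else τ x with hτ1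
    have hτ1_rest : ∀ a' ∈ rest, τ1 a' = τ a' := by
      intro a' ha'
      obtain ⟨h1, _, h3, h4, _, _⟩ := hrest a' ha'
      simp [hτ1, h1, h3, h4]
    have hτ1npm : IsNPM G τ1 (τ a) v := by
      refine ⟨?_, ?_, ?_, hbv, ?_⟩
      · intro x
        by_cases hxu : x = u
        · subst hxu
          simp [hτ1, hau]
        · by_cases hxa : x = a
          · subst hxa
            simp [hτ1, hxu]
          · by_cases hxb : x = τ a
            · subst hxb
              simp [hτ1, hbu, ha_notfix.symm]
            · have h1 : τ x ≠ u := fun h1 => hxu (hτ.apply_eq_u h1)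
              have h2 : τ x ≠ a := by
                intro h2
                apply hxb
                rw [← h2, hτ.invol]
              have h3 : τ x ≠ τ a := fun h3 => hxa (hτ.inj h3)
              simp [hτ1, hxu, hxa, hxb, h1, h2, h3, hτ.invol]
      · simp [hτ1, hbu, ha_notfix.symm]
      · have hvu : v ≠ u := hτ.ne.symm
        simp [hτ1, hvu, hav.symm, hbv.symm, hτ.fix_v]
      · intro x hxb hxv
        by_cases hxu : x = u
        · subst hxu
          simpa [hτ1] using hlink.1
        · by_cases hxa : x = a
          · subst hxa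
            simpa [hτ1, hxu] using hlink.1.symm
          · simpa [hτ1, hxu, hxa, hxb] using hτ.adj x hxu hxv
    have haug1 : IsAug G τ1 (τ a) v rest := by
      refine ⟨?_, ?_, hnd.2, ?_⟩
      · rw [link_congr rest hτ1_rest]
        exact hlink.2
      · rw [cur_congr rest hτ1_rest]
        exact h.last
      · intro a' ha' a'' ha''
        rw [hτ1_rest a'' ha'']
        exact h.disj a' (List.mem_cons_of_mem _ ha') a'' (List.mem_cons_of_mem _ ha'')
    obtain ⟨σ, hσ, hfol, hout⟩ := ih τ1 (τ a) v hτ1npm haug1
    refine ⟨σ, hσ, ⟨?_, ?_⟩, ?_⟩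
    · have hu_rest : u ∉ rest := fun hu => (hrest u hu).1 rfl
      have hu_map : u ∉ rest.map τ1 := by
        intro hu
        obtain ⟨a', ha', h1⟩ := List.mem_map.mp hu
        rw [hτ1_rest a' ha'] at h1
        exact (hrest a' ha').2.2.2.2.1 h1
      rw [hout u hbu.symm hτ.ne hu_rest hu_map]
      simp [hτ1]
    · rw [← follow_congr rest hτ1_rest]
      exact hfol
    · intro x hxu hxv hxmem hxmap
      have hxa : x ≠ a := fun hxa => hxmem (by rw [hxa]; exact List.mem_cons_self)
      have hxb : x ≠ τ a := fun hxb => hxmap (by rw [hxb]; simp)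
      have hx_rest : x ∉ rest := fun hx => hxmem (List.mem_cons_of_mem _ hx)
      have hx_map : x ∉ rest.map τ1 := by
        intro hx
        obtain ⟨a', ha', h1⟩ := List.mem_map.mp hx
        rw [hτ1_rest a' ha'] at h1
        apply hxmap
        rw [← h1]
        exact List.mem_map_of_mem (List.mem_cons_of_mem _ ha')
      rw [hout x hxb hxv hx_rest hx_map]
      simp [hτ1, hxu, hxa, hxb]

lemma follow_unique {σ τ τ' : V → V} {v v' : V} (as : List V) :
    ∀ (as' : List V) (c : V), Follow σ τ v c as → Follow σ τ' v' c as' →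
      as.map τ = as'.map τ' → as = as' ∧ v = v' := by
  induction as with
  | nil =>
    intro as' c h h' hmap
    cases as' with
    | nil =>
      simp only [Follow] at h h'
      exact ⟨rfl, h.symm.trans h'⟩
    | cons a' rest' => simp at hmap
  | cons a rest ih =>
    intro as' c h h' hmap
    cases as' with
    | nil => simp at hmap
    | cons a' rest' =>
      simp only [Follow] at h h'
      simp only [List.map_cons, List.cons.injEq] at hmap
      have haa : a = a' := h.1.symm.trans h'.1
      have h2 : Follow σ τ' v' (τ a) rest' := by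
        rw [hmap.1]; exact h'.2
      obtain ⟨h3, h4⟩ := ih rest' (τ a) h.2 h2 hmap.2
      exact ⟨by rw [haa, h3], h4⟩

theorem decode {σ τ τ' : V → V} {u v u' v' : V} {as as' : List V}
    (hτ : IsNPM G τ u v) (hτ' : IsNPM G τ' u' v')
    (hf : Follow σ τ v u as) (hf' : Follow σ τ' v' u' as')
    (hout : ∀ x, x ≠ u → x ≠ v → x ∉ as → x ∉ as.map τ → σ x = τ x)
    (hout' : ∀ x, x ≠ u' → x ≠ v' → x ∉ as' → x ∉ as'.map τ' → σ x = τ' x)
    (hcode : u :: as.map τ = u' :: as'.map τ') : τ = τ' := by
  simp only [List.cons.injEq] at hcode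
  obtain ⟨huu, hmap⟩ := hcode
  subst huu
  obtain ⟨has, hvv⟩ := follow_unique as as' u hf hf' hmap
  subst has
  subst hvv
  have hagree : ∀ a ∈ as, τ a = τ' a := List.map_inj_left.mp hmap
  funext x
  by_cases hxu : x = u
  · rw [hxu, hτ.fix_u, hτ'.fix_u]
  by_cases hxv : x = v
  · rw [hxv, hτ.fix_v, hτ'.fix_v]
  by_cases hxmem : x ∈ as
  · exact hagree x hxmem
  by_cases hxmap : x ∈ as.map τ
  · obtain ⟨a, ha, rfl⟩ := List.mem_map.mp hxmap
    rw [hτ.invol, hagree a ha, hτ'.invol]
  · rw [← hout x hxu hxv hxmem hxmap]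
    exact hout' x hxu hxv hxmem (hmap ▸ hxmap)

end augment

end Vale.Agent.H83.Matchings
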