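import Vale.Agent.H83.Matchings

namespace Vale.Agent.H83.Matchings

open SimpleGraph

variable {V : Type*} {G : SimpleGraph V}

section partner

open Classical in
/-- the partner map of a matching subgraph: the matched neighbour of a covered vertex,
and the vertex itself if it is uncovered -/
noncomputable def partner (M : G.Subgraph) (hM : M.IsMatching) (x : V) : V :=
  if h : x ∈ M.verts then (hM h).choose else x

lemma partner_adj (M : G.Subgraph) (hM : M.IsMatching) {x : V} (hx : x ∈ M.verts) :
    M.Adj x (partner M hM x) := by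
  unfold partner
  rw [dif_pos hx]
  exact (hM hx).choose_spec.1

lemma partner_eq (M : G.Subgraph) (hM : M.IsMatching) {x y : V} (hxy : M.Adj x y) :
    partner M hM x = y := by
  have hx : x ∈ M.verts := hxy.fst_mem
  unfold partner
  rw [dif_pos hx]
  exact ((hM hx).choose_spec.2 y hxy).symm

lemma partner_of_notMem (M : G.Subgraph) (hM : M.IsMatching) {x : V} (hx : x ∉ M.verts) :
    partner M hM x = x := by
  unfold partner
  rw [dif_neg hx]

lemma partner_invol (M : G.Subgraph) (hM : M.IsMatching) (x : V) :
    partner M hM (partner M hM x) = x := by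
  by_cases hx : x ∈ M.verts
  · exact partner_eq M hM (partner_adj M hM hx).symm
  · rw [partner_of_notMem M hM hx, partner_of_notMem M hM hx]

lemma mem_verts_iff (M : G.Subgraph) (hM : M.IsMatching) (x : V) :
    x ∈ M.verts ↔ partner M hM x ≠ x := by
  constructor
  · intro hx
    exact (G.ne_of_adj (partner_adj M hM hx).adj_sub).symm
  · intro hne
    by_contra hx
    exact hne (partner_of_notMem M hM hx)

lemma adj_iff_partner (M : G.Subgraph) (hM : M.IsMatching) (x y : V) :
    M.Adj x y ↔ x ∈ M.verts ∧ partner M hM x = y := by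
  constructor
  · intro h
    exact ⟨h.fst_mem, partner_eq M hM h⟩
  · rintro ⟨hx, rfl⟩
    exact partner_adj M hM hx

lemma eq_of_partner_eq (M M' : G.Subgraph) (hM : M.IsMatching) (hM' : M'.IsMatching)
    (h : partner M hM = partner M' hM') : M = M' := by
  have hverts : M.verts = M'.verts := by
    ext x
    rw [mem_verts_iff M hM, mem_verts_iff M' hM', h]
  apply Subgraph.ext hverts
  funext x y
  apply propext
  rw [adj_iff_partner M hM, adj_iff_partner M' hM', hverts, h]

lemma isPM_partner (M : G.Subgraph) (hM : M.IsPerfectMatching) : IsPM G (partner M hM.1) where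
  invol := partner_invol M hM.1
  adj := fun x => (partner_adj M hM.1 (hM.2 x)).adj_sub

lemma isNPM_partner (M : G.Subgraph) (hM : M.IsMatching) {u v : V} (huv : u ≠ v)
    (hc : M.vertsᶜ = {u, v}) : IsNPM G (partner M hM) u v where
  invol := partner_invol M hM
  fix_u := by
    apply partner_of_notMem
    have : u ∈ M.vertsᶜ := by rw [hc]; simp
    exact this
  fix_v := by
    apply partner_of_notMem
    have : v ∈ M.vertsᶜ := by rw [hc]; simp
    exact this
  ne := huv
  adj := by
    intro x hxu hxv
    have hx : x ∈ M.verts := by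
      by_contra hx
      have : x ∈ M.vertsᶜ := hx
      rw [hc] at this
      rcases this with h | h
      · exact hxu h
      · exact hxv h
    exact (partner_adj M hM hx).adj_sub

/-- the perfect matching subgraph with partner map `σ` -/
def toSubgraph (σ : V → V) (hσ : IsPM G σ) : G.Subgraph where
  verts := Set.univ
  Adj x y := σ x = y
  adj_sub := by
    intro x y h
    rw [← h]
    exact hσ.adj x
  edge_vert := by
    intro x y _
    trivial
  symm := ⟨by
    intro x y h
    rw [← h, hσ.invol]⟩

lemma toSubgraph_isPerfectMatching (σ : V → V) (hσ : IsPM G σ) :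
    (toSubgraph σ hσ).IsPerfectMatching := by
  rw [Subgraph.isPerfectMatching_iff]
  intro x
  exact ⟨σ x, rfl, fun y hy => Eq.symm (show σ x = y from hy)⟩

lemma toSubgraph_inj {σ σ' : V → V} (hσ : IsPM G σ) (hσ' : IsPM G σ')
    (h : toSubgraph σ hσ = toSubgraph σ' hσ') : σ = σ' := by
  funext x
  have h1 : (toSubgraph σ hσ).Adj x (σ x) := rfl
  rw [h] at h1
  exact Eq.symm (show σ' x = σ x from h1)

end partner

section count

variable [Fintype V]

lemma npm_data [DecidableEq V] (k : ℕ)
    (hα : ∀ s : Finset V, G.IsIndepSet (↑s : Set V) → s.card ≤ k)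
    (hpm : ∃ M0 : G.Subgraph, M0.IsPerfectMatching)
    (M : G.Subgraph) (hM : M.IsMatching) (hc : M.vertsᶜ.ncard = 2) :
    ∃ (u v : V) (as : List V) (σ : V → V), IsNPM G (partner M hM) u v ∧ IsPM G σ ∧
      Follow σ (partner M hM) v u as ∧
      (∀ x, x ≠ u → x ≠ v → x ∉ as → x ∉ as.map (partner M hM) → σ x = partner M hM x) ∧
      as.length + 2 ≤ 3 * k := by
  obtain ⟨M0, hM0⟩ := hpm
  obtain ⟨u, v, huv, huvc⟩ := Set.ncard_eq_two.mp hc
  have hτ := isNPM_partner M hM huv huvc
  have hσ0 := isPM_partner M0 hM0
  have hex : ∃ n, ∃ as, IsAug G (partner M hM) u v as ∧ as.length = n := by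
    obtain ⟨as, has⟩ := exists_aug hσ0 hτ
    exact ⟨_, as, has, rfl⟩
  classical
  obtain ⟨as, has, hlen⟩ := Nat.find_spec hex
  have hmin : ∀ as', IsAug G (partner M hM) u v as' → as.length ≤ as'.length := by
    intro as' has'
    rw [hlen]
    exact Nat.find_min' hex ⟨as', has', rfl⟩
  obtain ⟨σ, hσ, hfol, hout⟩ := exists_augment as (partner M hM) u v hτ has
  exact ⟨u, v, as, σ, hτ, hσ, hfol, hout, has.length_bound hτ hmin k hα⟩

theorem ratio_bound [DecidableEq V] (k : ℕ)
    (hα : ∀ s : Finset V, G.IsIndepSet (↑s : Set V) → s.card ≤ k)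
    (hpm : ∃ M0 : G.Subgraph, M0.IsPerfectMatching) :
    Nat.card {M : G.Subgraph // M.IsMatching ∧ M.vertsᶜ.ncard = 2}
      ≤ (Fintype.card V + 1) ^ (3 * k) * Nat.card {M : G.Subgraph // M.IsPerfectMatching} := by
  classical
  have hdata := fun (m : {M : G.Subgraph // M.IsMatching ∧ M.vertsᶜ.ncard = 2}) =>
    npm_data k hα hpm m.1 m.2.1 m.2.2
  choose fu fv fas fσ h1 h2 h3 h4 h5 using hdata
  let Φ : {M : G.Subgraph // M.IsMatching ∧ M.vertsᶜ.ncard = 2} →
      {M : G.Subgraph // M.IsPerfectMatching} × (Fin (3 * k) → Option V) :=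
    fun m => (⟨toSubgraph (fσ m) (h2 m), toSubgraph_isPerfectMatching _ _⟩,
      fun i => (fu m :: (fas m).map (partner m.1 m.2.1))[i.val]?)
  have hinj : Function.Injective Φ := by
    intro m m' heq
    have e1 : toSubgraph (fσ m) (h2 m) = toSubgraph (fσ m') (h2 m') :=
      congrArg (fun p => p.1.1) heq
    have hσeq : fσ m = fσ m' := toSubgraph_inj _ _ e1
    have e2 : (fun i : Fin (3 * k) => (fu m :: (fas m).map (partner m.1 m.2.1))[i.val]?)
        = (fun i : Fin (3 * k) => (fu m' :: (fas m').map (partner m'.1 m'.2.1))[i.val]?) :=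
      congrArg Prod.snd heq
    have hcode : fu m :: (fas m).map (partner m.1 m.2.1)
        = fu m' :: (fas m').map (partner m'.1 m'.2.1) := by
      apply List.ext_getElem?
      intro i
      by_cases hi : i < 3 * k
      · exact congrFun e2 ⟨i, hi⟩
      · have l1 : (fu m :: (fas m).map (partner m.1 m.2.1)).length ≤ i := by
          have := h5 m
          simp only [List.length_cons, List.length_map]
          omega
        have l2 : (fu m' :: (fas m').map (partner m'.1 m'.2.1)).length ≤ i := by
          have := h5 m'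
          simp only [List.length_cons, List.length_map]
          omega
        rw [List.getElem?_eq_none l1, List.getElem?_eq_none l2]
    have hτeq : partner m.1 m.2.1 = partner m'.1 m'.2.1 := by
      have hf' := h3 m'
      have ho' := h4 m'
      rw [← hσeq] at hf' ho'
      exact decode (h1 m) (h1 m') (h3 m) hf' (h4 m) ho' hcode
    exact Subtype.ext (eq_of_partner_eq _ _ _ _ hτeq)
  have hcard := Nat.card_le_card_of_injective Φ hinj
  rw [Nat.card_prod, Nat.card_fun] at hcard
  rw [Nat.card_eq_fintype_card (α := Option V), Nat.card_eq_fintype_card (α := Fin (3 * k)),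
    Fintype.card_option, Fintype.card_fin] at hcard
  rw [mul_comm]
  exact hcard

end count

end Vale.Agent.H83.Matchings
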