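import Mathlib

namespace Vale.Agent.H83.PTF

open Finset

/-- The sign value in `{1,-1}` of a Boolean coordinate. -/
def sg (b : Bool) : ℝ := if b then 1 else -1

/-- The point `x` with coordinate `i` negated. -/
def flip {n : ℕ} (x : Fin n → Bool) (i : Fin n) : Fin n → Bool :=
  Function.update x i (!(x i))

/-- Average sensitivity (total influence): the sum over coordinates `i` of the
fraction of points `x` of the cube with `f x ≠ f (flip x i)`. -/
noncomputable def totalInfluence {n : ℕ} (f : (Fin n → Bool) → Bool) : ℝ :=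
  ∑ i : Fin n, ((univ.filter (fun x : Fin n → Bool => f x ≠ f (flip x i))).card : ℝ) / 2 ^ n

section basic

variable {n : ℕ}

lemma sg_sq (b : Bool) : sg b * sg b = 1 := by
  cases b <;> simp [sg]

lemma sg_not (b : Bool) : sg (!b) = - sg b := by
  cases b <;> simp [sg]

lemma flip_same (x : Fin n → Bool) (i : Fin n) : flip x i i = !(x i) := by
  simp [flip]

lemma flip_ne (x : Fin n → Bool) {i j : Fin n} (h : j ≠ i) : flip x i j = x j := by
  simp [flip, Function.update_of_ne h]

lemma flip_flip (x : Fin n → Bool) (i : Fin n) : flip (flip x i) i = x := by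
  funext j
  by_cases h : j = i
  · subst h; simp [flip]
  · simp [flip, Function.update_of_ne h]

/-- flipping coordinate `i` as an equivalence of the cube -/
def flipEquiv (i : Fin n) : (Fin n → Bool) ≃ (Fin n → Bool) where
  toFun x := flip x i
  invFun x := flip x i
  left_inv x := flip_flip x i
  right_inv x := flip_flip x i

lemma sum_flip (i : Fin n) (F : (Fin n → Bool) → ℝ) :
    ∑ x, F (flip x i) = ∑ x, F x :=
  Equiv.sum_comp (flipEquiv i) F

lemma card_cube : (Fintype.card (Fin n → Bool) : ℝ) = 2 ^ n := by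
  simp

lemma sum_sg_mul_sg (i j : Fin n) :
    ∑ x : Fin n → Bool, sg (x i) * sg (x j) = if i = j then (2 : ℝ) ^ n else 0 := by
  split_ifs with h
  · subst h
    simp [sg_sq]
  · have h1 : ∑ x : Fin n → Bool, sg (x i) * sg (x j)
        = ∑ x : Fin n → Bool, sg (flip x i i) * sg (flip x i j) :=
      (sum_flip i (fun x => sg (x i) * sg (x j))).symm
    have h2 : ∀ x : Fin n → Bool, sg (flip x i i) * sg (flip x i j) = - (sg (x i) * sg (x j)) := by
      intro x
      rw [flip_same, flip_ne x (Ne.symm h), sg_not]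
      ring
    simp only [h2, Finset.sum_neg_distrib] at h1
    linarith

end basic

section unate

variable {n : ℕ}

/-- three-valued sign of a real number, as a real number -/
noncomputable def s3 (t : ℝ) : ℝ := if 0 < t then 1 else if t < 0 then -1 else 0

lemma s3_of_pos {t : ℝ} (h : 0 < t) : s3 t = 1 := by simp [s3, h]

lemma s3_of_neg {t : ℝ} (h : t < 0) : s3 t = -1 := by
  simp [s3, h, not_lt.mpr h.le]

lemma s3_zero : s3 0 = 0 := by simp [s3]

lemma s3_cases (t : ℝ) : (t < 0 ∧ s3 t = -1) ∨ (t = 0 ∧ s3 t = 0) ∨ (0 < t ∧ s3 t = 1) := by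
  rcases lt_trichotomy t 0 with h | h | h
  · exact Or.inl ⟨h, s3_of_neg h⟩
  · subst h; exact Or.inr (Or.inl ⟨rfl, s3_zero⟩)
  · exact Or.inr (Or.inr ⟨h, s3_of_pos h⟩)

lemma s3_mono {a b : ℝ} (h : a ≤ b) : s3 a ≤ s3 b := by
  rcases s3_cases a with ⟨ha, ea⟩ | ⟨ha, ea⟩ | ⟨ha, ea⟩ <;>
  rcases s3_cases b with ⟨hb, eb⟩ | ⟨hb, eb⟩ | ⟨hb, eb⟩ <;>
  rw [ea, eb] <;> first | (exfalso; linarith) | norm_num

lemma s3_sq_le (a : ℝ) : s3 a ^ 2 ≤ 1 := by
  rcases s3_cases a with ⟨_, ea⟩ | ⟨_, ea⟩ | ⟨_, ea⟩ <;> rw [ea] <;> norm_num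

lemma one_le_abs_s3_sub {a b : ℝ} (h : s3 a ≠ s3 b) : 1 ≤ |s3 a - s3 b| := by
  rcases s3_cases a with ⟨_, ea⟩ | ⟨_, ea⟩ | ⟨_, ea⟩ <;>
  rcases s3_cases b with ⟨_, eb⟩ | ⟨_, eb⟩ | ⟨_, eb⟩ <;>
  rw [ea, eb] at h ⊢ <;> first | (exfalso; exact h rfl) | norm_num

lemma sign_eq_of_s3_eq {a b : ℝ} (h : s3 a = s3 b) : SignType.sign a = SignType.sign b := by
  rcases s3_cases a with ⟨ha, ea⟩ | ⟨ha, ea⟩ | ⟨ha, ea⟩ <;>
  rcases s3_cases b with ⟨hb, eb⟩ | ⟨hb, eb⟩ | ⟨hb, eb⟩ <;>
  rw [ea, eb] at h <;> first | (exfalso; norm_num at h; done) | skip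
  · rw [sign_neg ha, sign_neg hb]
  · rw [ha, hb]
  · rw [sign_pos ha, sign_pos hb]

/-- an affine form evaluated on a point of the cube -/
def aff (w : Fin n → ℝ) (c : ℝ) (x : Fin n → Bool) : ℝ := ∑ j, w j * sg (x j) + c

lemma aff_flip (w : Fin n → ℝ) (c : ℝ) (x : Fin n → Bool) (i : Fin n) :
    aff w c (flip x i) = aff w c x - 2 * w i * sg (x i) := by
  unfold aff
  have h1 : ∑ j, w j * sg (flip x i j) = ∑ j, (w j * sg (x j) - if j = i then 2 * w i * sg (x i) else 0) := by
    apply Finset.sum_congr rfl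
    intro j _
    by_cases h : j = i
    · subst h
      rw [flip_same, sg_not]; simp; ring
    · rw [flip_ne x h]; simp [h]
  rw [h1, Finset.sum_sub_distrib]
  simp
  ring

theorem unate_bound (w : Fin n → ℝ) (c : ℝ) :
    ∑ i : Fin n, ((univ.filter (fun x : Fin n → Bool =>
        s3 (aff w c x) ≠ s3 (aff w c (flip x i)))).card : ℝ)
      ≤ 2 * 2 ^ n * Real.sqrt n := by
  classical
  set h : (Fin n → Bool) → ℝ := fun x => s3 (aff w c x) with hh
  set ε : Fin n → ℝ := fun i => if 0 ≤ w i then 1 else -1 with hε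
  set g : (Fin n → Bool) → ℝ := fun x => ∑ i, ε i * sg (x i) with hg
  have hεsq : ∀ i, ε i * ε i = 1 := by
    intro i; simp only [hε]; split_ifs <;> norm_num
  -- Step 1
  have step1 : ∀ i x, |h x - h (flip x i)| = ε i * sg (x i) * (h x - h (flip x i)) := by
    intro i x
    simp only [hh, hε]
    rw [aff_flip]
    by_cases hw : 0 ≤ w i
    · rw [if_pos hw]
      cases hx : x i
      · have : s3 (aff w c x) ≤ s3 (aff w c x - 2 * w i * sg false) := by
          apply s3_mono; simp [sg]; linarith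
        rw [abs_of_nonpos (by linarith)]; simp [sg]
      · have : s3 (aff w c x - 2 * w i * sg true) ≤ s3 (aff w c x) := by
          apply s3_mono; simp [sg]; linarith
        rw [abs_of_nonneg (by linarith)]; simp [sg]
    · rw [if_neg hw]
      replace hw : w i < 0 := not_le.mp hw
      cases hx : x i
      · have : s3 (aff w c x - 2 * w i * sg false) ≤ s3 (aff w c x) := by
          apply s3_mono; simp [sg]; linarith
        rw [abs_of_nonneg (by linarith)]; simp [sg]
      · have : s3 (aff w c x) ≤ s3 (aff w c x - 2 * w i * sg true) := by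
          apply s3_mono; simp [sg]; linarith
        rw [abs_of_nonpos (by linarith)]; simp [sg]
  -- Step 2
  have step2 : ∀ i, ((univ.filter (fun x : Fin n → Bool => h x ≠ h (flip x i))).card : ℝ)
      ≤ ∑ x, |h x - h (flip x i)| := by
    intro i
    rw [Finset.card_filter]
    push_cast
    apply Finset.sum_le_sum
    intro x _
    split_ifs with hx
    · exact one_le_abs_s3_sub hx
    · exact abs_nonneg _
  -- Step 3
  have step3 : ∀ i, ∑ x, |h x - h (flip x i)| = 2 * ε i * ∑ x, sg (x i) * h x := by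
    intro i
    have e1 : ∑ x, sg (x i) * h (flip x i) = - ∑ x, sg (x i) * h x := by
      rw [← sum_flip i (fun x => sg (x i) * h (flip x i))]
      rw [← Finset.sum_neg_distrib]
      apply Finset.sum_congr rfl
      intro x _
      rw [flip_flip, flip_same, sg_not]; ring
    calc ∑ x, |h x - h (flip x i)| = ∑ x, ε i * sg (x i) * (h x - h (flip x i)) :=
          Finset.sum_congr rfl (fun x _ => step1 i x)
      _ = ε i * (∑ x, sg (x i) * h x - ∑ x, sg (x i) * h (flip x i)) := by
          rw [← Finset.sum_sub_distrib, Finset.mul_sum]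
          apply Finset.sum_congr rfl; intro x _; ring
      _ = 2 * ε i * ∑ x, sg (x i) * h x := by rw [e1]; ring
  -- Step 4
  have step4 : ∑ i, ∑ x, |h x - h (flip x i)| = 2 * ∑ x, h x * g x := by
    simp only [step3, hg]
    rw [Finset.mul_sum]
    simp only [Finset.mul_sum]
    rw [Finset.sum_comm]
    apply Finset.sum_congr rfl; intro x _
    apply Finset.sum_congr rfl; intro i _
    ring
  -- Step 5
  have hsumh : ∑ x, h x ^ 2 ≤ 2 ^ n := by
    calc ∑ x, h x ^ 2 ≤ ∑ _x : Fin n → Bool, (1 : ℝ) :=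
          Finset.sum_le_sum (fun x _ => s3_sq_le _)
      _ = 2 ^ n := by simp
  have hsumg : ∑ x, g x ^ 2 = n * 2 ^ n := by
    have : ∀ x, g x ^ 2 = ∑ i, ∑ j, ε i * ε j * (sg (x i) * sg (x j)) := by
      intro x
      simp only [hg, sq, Finset.sum_mul_sum]
      apply Finset.sum_congr rfl; intro i _
      apply Finset.sum_congr rfl; intro j _
      ring
    simp only [this]
    rw [Finset.sum_comm]
    have : ∀ i, ∑ x : Fin n → Bool, ∑ j, ε i * ε j * (sg (x i) * sg (x j)) = 2 ^ n := by
      intro i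
      rw [Finset.sum_comm]
      simp only [← Finset.mul_sum, sum_sg_mul_sg]
      simp [hεsq]
    simp [this]
  have hcs : (∑ x, h x * g x) ^ 2 ≤ (∑ x, h x ^ 2) * ∑ x, g x ^ 2 :=
    Finset.sum_mul_sq_le_sq_mul_sq _ _ _
  have hle : (∑ x, h x * g x) ^ 2 ≤ ((2 : ℝ) ^ n * Real.sqrt n) ^ 2 := by
    have hn : (0 : ℝ) ≤ n := Nat.cast_nonneg n
    rw [mul_pow, Real.sq_sqrt hn]
    calc (∑ x, h x * g x) ^ 2 ≤ (∑ x, h x ^ 2) * ∑ x, g x ^ 2 := hcs
      _ ≤ 2 ^ n * (n * 2 ^ n) := by
          rw [hsumg]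
          apply mul_le_mul_of_nonneg_right hsumh
          positivity
      _ = (2 ^ n) ^ 2 * n := by ring
  have hfin : ∑ x, h x * g x ≤ 2 ^ n * Real.sqrt n := by
    have hpos : (0 : ℝ) ≤ 2 ^ n * Real.sqrt n := by positivity
    exact (abs_le_of_sq_le_sq' hle hpos).2
  calc ∑ i : Fin n, ((univ.filter (fun x : Fin n → Bool =>
        s3 (aff w c x) ≠ s3 (aff w c (flip x i)))).card : ℝ)
      ≤ ∑ i, ∑ x, |h x - h (flip x i)| := Finset.sum_le_sum (fun i _ => step2 i)
    _ = 2 * ∑ x, h x * g x := step4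
    _ ≤ 2 * (2 ^ n * Real.sqrt n) := by linarith
    _ = 2 * 2 ^ n * Real.sqrt n := by ring

end unate

section roots

variable {n : ℕ}

lemma sign_eval_eq (q : Polynomial ℝ) {s t : ℝ}
    (h : ∀ r ∈ q.roots.toFinset, s3 (s - r) = s3 (t - r)) :
    SignType.sign (q.eval s) = SignType.sign (q.eval t) := by
  by_cases hq : q = 0
  · subst hq; simp
  wlog hst : s ≤ t generalizing s t
  · exact (this (fun r hr => (h r hr).symm) (le_of_not_ge hst)).symm
  rcases hst.eq_or_lt with rfl | hlt
  · rfl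
  have hroot : ∀ r, q.eval r = 0 → s3 (s - r) = s3 (t - r) := by
    intro r hr
    apply h
    rw [Multiset.mem_toFinset, Polynomial.mem_roots hq]
    exact hr
  have hs : q.eval s ≠ 0 := by
    intro h0
    have := hroot s h0
    rw [sub_self, s3_zero, s3_of_pos (sub_pos.mpr hlt)] at this
    norm_num at this
  have ht : q.eval t ≠ 0 := by
    intro h0
    have := hroot t h0
    rw [sub_self, s3_zero, s3_of_neg (sub_neg.mpr hlt)] at this
    norm_num at this
  by_contra hne
  have hex : ∃ r ∈ Set.Icc s t, q.eval r = 0 := by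
    rcases lt_or_gt_of_ne hs with hs' | hs' <;> rcases lt_or_gt_of_ne ht with ht' | ht'
    · exfalso; apply hne; rw [sign_neg hs', sign_neg ht']
    · have := intermediate_value_Icc hst q.continuous.continuousOn
        (show (0:ℝ) ∈ Set.Icc (q.eval s) (q.eval t) from ⟨hs'.le, ht'.le⟩)
      obtain ⟨r, hr, hr0⟩ := this
      exact ⟨r, hr, hr0⟩
    · have := intermediate_value_Icc' hst q.continuous.continuousOn
        (show (0:ℝ) ∈ Set.Icc (q.eval t) (q.eval s) from ⟨ht'.le, hs'.le⟩)
      obtain ⟨r, hr, hr0⟩ := this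
      exact ⟨r, hr, hr0⟩
    · exfalso; apply hne; rw [sign_pos hs', sign_pos ht']
  obtain ⟨r, ⟨hr1, hr2⟩, hr0⟩ := hex
  have hsr : s < r := lt_of_le_of_ne hr1 (by rintro rfl; exact hs hr0)
  have hrt : r < t := lt_of_le_of_ne hr2 (by rintro rfl; exact ht hr0)
  have := hroot r hr0
  rw [s3_of_neg (sub_neg.mpr hsr), s3_of_pos (sub_pos.mpr hrt)] at this
  norm_num at this

lemma aff_sub (w : Fin n → ℝ) (c r : ℝ) (x : Fin n → Bool) :
    aff w (c - r) x = aff w c x - r := by
  unfold aff; ring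

theorem influence_bound_aux (m : ℕ) (q : Fin m → Polynomial ℝ) (w : Fin m → Fin n → ℝ)
    (c : Fin m → ℝ) (f : (Fin n → Bool) → Bool)
    (hf : ∀ x, f x = true ↔ 0 ≤ ∏ j, (q j).eval (aff (w j) (c j) x)) :
    totalInfluence f ≤ 2 * (∑ j, (q j).natDegree : ℕ) * Real.sqrt n := by
  classical
  -- the sensitive set of f in direction i is covered by the sensitive sets of the sign classes
  have hsub : ∀ i : Fin n, (univ.filter (fun x : Fin n → Bool => f x ≠ f (flip x i))) ⊆
      (univ : Finset (Fin m)).biUnion (fun j => (q j).roots.toFinset.biUnion (fun r =>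
        univ.filter (fun x : Fin n → Bool =>
          s3 (aff (w j) (c j - r) x) ≠ s3 (aff (w j) (c j - r) (flip x i))))) := by
    intro i x hx
    rw [Finset.mem_filter] at hx
    by_contra hcon
    apply hx.2
    have hall : ∀ j, ∀ r ∈ (q j).roots.toFinset,
        s3 (aff (w j) (c j - r) x) = s3 (aff (w j) (c j - r) (flip x i)) := by
      intro j r hr
      by_contra hne
      apply hcon
      rw [Finset.mem_biUnion]
      refine ⟨j, Finset.mem_univ _, ?_⟩
      rw [Finset.mem_biUnion]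
      exact ⟨r, hr, Finset.mem_filter.mpr ⟨Finset.mem_univ _, hne⟩⟩
    have hsign : ∀ j, SignType.sign ((q j).eval (aff (w j) (c j) x))
        = SignType.sign ((q j).eval (aff (w j) (c j) (flip x i))) := by
      intro j
      apply sign_eval_eq
      intro r hr
      have := hall j r hr
      rwa [aff_sub, aff_sub] at this
    have hprod : SignType.sign (∏ j, (q j).eval (aff (w j) (c j) x))
        = SignType.sign (∏ j, (q j).eval (aff (w j) (c j) (flip x i))) := by
      have e1 := map_prod (signHom (α := ℝ)) (fun j => (q j).eval (aff (w j) (c j) x)) univ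
      have e2 := map_prod (signHom (α := ℝ)) (fun j => (q j).eval (aff (w j) (c j) (flip x i))) univ
      simp only [signHom_apply] at e1 e2
      rw [e1, e2]
      exact Finset.prod_congr rfl (fun j _ => hsign j)
    rw [Bool.eq_iff_iff, hf x, hf (flip x i), ← sign_nonneg_iff, hprod, sign_nonneg_iff]
  have hcard : ∀ i : Fin n, ((univ.filter (fun x : Fin n → Bool => f x ≠ f (flip x i))).card : ℝ) ≤
      ∑ j : Fin m, ∑ r ∈ (q j).roots.toFinset, ((univ.filter (fun x : Fin n → Bool =>
          s3 (aff (w j) (c j - r) x) ≠ s3 (aff (w j) (c j - r) (flip x i)))).card : ℝ) := by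
    intro i
    have h1 := Finset.card_le_card (hsub i)
    have h2 := Finset.card_biUnion_le (s := (univ : Finset (Fin m)))
      (t := fun j => (q j).roots.toFinset.biUnion (fun r =>
        univ.filter (fun x : Fin n → Bool =>
          s3 (aff (w j) (c j - r) x) ≠ s3 (aff (w j) (c j - r) (flip x i)))))
    have h3 : ∀ j : Fin m, ((q j).roots.toFinset.biUnion (fun r =>
        univ.filter (fun x : Fin n → Bool =>
          s3 (aff (w j) (c j - r) x) ≠ s3 (aff (w j) (c j - r) (flip x i))))).card ≤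
        ∑ r ∈ (q j).roots.toFinset, (univ.filter (fun x : Fin n → Bool =>
          s3 (aff (w j) (c j - r) x) ≠ s3 (aff (w j) (c j - r) (flip x i)))).card :=
      fun j => Finset.card_biUnion_le
    have h4 := h1.trans (h2.trans (Finset.sum_le_sum (fun j _ => h3 j)))
    exact_mod_cast h4
  have hpow : (0 : ℝ) < 2 ^ n := by positivity
  unfold totalInfluence
  rw [← Finset.sum_div, div_le_iff₀ hpow]
  calc ∑ i : Fin n, ((univ.filter (fun x : Fin n → Bool => f x ≠ f (flip x i))).card : ℝ)
      ≤ ∑ i : Fin n, ∑ j : Fin m, ∑ r ∈ (q j).roots.toFinset, ((univ.filter (fun x : Fin n → Bool =>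
          s3 (aff (w j) (c j - r) x) ≠ s3 (aff (w j) (c j - r) (flip x i)))).card : ℝ) :=
        Finset.sum_le_sum (fun i _ => hcard i)
    _ = ∑ j : Fin m, ∑ r ∈ (q j).roots.toFinset, ∑ i : Fin n, ((univ.filter (fun x : Fin n → Bool =>
          s3 (aff (w j) (c j - r) x) ≠ s3 (aff (w j) (c j - r) (flip x i)))).card : ℝ) := by
        rw [Finset.sum_comm]
        apply Finset.sum_congr rfl; intro j _
        rw [Finset.sum_comm]
    _ ≤ ∑ j : Fin m, ∑ _r ∈ (q j).roots.toFinset, (2 * 2 ^ n * Real.sqrt n) :=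
        Finset.sum_le_sum (fun j _ => Finset.sum_le_sum (fun r _ => unate_bound (w j) (c j - r)))
    _ = ∑ j : Fin m, (((q j).roots.toFinset.card : ℝ) * (2 * 2 ^ n * Real.sqrt n)) := by
        apply Finset.sum_congr rfl; intro j _
        rw [Finset.sum_const, nsmul_eq_mul]
    _ ≤ ∑ j : Fin m, (((q j).natDegree : ℝ) * (2 * 2 ^ n * Real.sqrt n)) := by
        apply Finset.sum_le_sum; intro j _
        apply mul_le_mul_of_nonneg_right _ (by positivity)
        have := (Multiset.toFinset_card_le (q j).roots).trans (Polynomial.card_roots' (q j))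
        exact_mod_cast this
    _ = 2 * (∑ j, (q j).natDegree : ℕ) * Real.sqrt n * 2 ^ n := by
        rw [← Finset.sum_mul]; push_cast; ring

end roots

section mvpoly

variable {n : ℕ}

lemma eval_aeval (X : Fin n → ℝ) (ℓ : MvPolynomial (Fin n) ℝ) (q : Polynomial ℝ) :
    MvPolynomial.eval X (Polynomial.aeval ℓ q) = q.eval (MvPolynomial.eval X ℓ) := by
  have h := Polynomial.aeval_algHom_apply (MvPolynomial.aeval X : MvPolynomial (Fin n) ℝ →ₐ[ℝ] ℝ) ℓ q
  rw [MvPolynomial.aeval_eq_eval] at h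
  rw [← h]
  simp [Polynomial.aeval_def, Polynomial.eval₂_eq_eval_map]

lemma totalDegree_aeval_le (ℓ : MvPolynomial (Fin n) ℝ) (q : Polynomial ℝ) :
    (Polynomial.aeval ℓ q).totalDegree ≤ q.natDegree * ℓ.totalDegree := by
  rw [Polynomial.aeval_eq_sum_range]
  refine (MvPolynomial.totalDegree_finsetSum _ _).trans ?_
  apply Finset.sup_le
  intro k hk
  rw [Finset.mem_range] at hk
  refine (MvPolynomial.totalDegree_smul_le _ _).trans ?_
  refine (MvPolynomial.totalDegree_pow _ _).trans ?_
  exact Nat.mul_le_mul_right _ (Nat.lt_succ_iff.mp hk)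

lemma finsupp_of_sum_le_one (d : Fin n →₀ ℕ) (h : (d.sum fun _ e => e) ≤ 1) :
    d = 0 ∨ ∃ i, d = Finsupp.single i 1 := by
  by_cases h0 : d = 0
  · exact Or.inl h0
  right
  obtain ⟨i, hi⟩ : ∃ i, d i ≠ 0 := by
    by_contra hcon
    push Not at hcon
    apply h0
    ext j
    simpa using hcon j
  refine ⟨i, ?_⟩
  rw [Finsupp.sum_fintype _ _ (fun _ => rfl)] at h
  have hsplit : ∑ j, d j = d i + ∑ j ∈ Finset.univ.erase i, d j := by
    rw [Finset.add_sum_erase _ _ (Finset.mem_univ i)]
  have hi1 : d i = 1 := by omega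
  have hrest : ∑ j ∈ Finset.univ.erase i, d j = 0 := by omega
  ext j
  by_cases hj : j = i
  · subst hj; simp [hi1]
  · have := (Finset.sum_eq_zero_iff.mp hrest) j (Finset.mem_erase.mpr ⟨hj, Finset.mem_univ _⟩)
    rw [this, Finsupp.single_apply, if_neg (Ne.symm hj)]

lemma eval_of_totalDegree_le_one (ℓ : MvPolynomial (Fin n) ℝ) (hℓ : ℓ.totalDegree ≤ 1)
    (x : Fin n → Bool) :
    MvPolynomial.eval (fun i => sg (x i)) ℓ
      = aff (fun i => ℓ.coeff (Finsupp.single i 1)) (ℓ.coeff 0) x := by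
  classical
  rw [MvPolynomial.eval_eq']
  set S : Finset (Fin n →₀ ℕ) := insert 0 (Finset.univ.image (fun i : Fin n => Finsupp.single i 1))
    with hS
  have hsub : ℓ.support ⊆ S := by
    intro d hd
    have hdeg := (MvPolynomial.le_totalDegree hd).trans hℓ
    rcases finsupp_of_sum_le_one d hdeg with h0 | ⟨i, hi⟩
    · rw [h0, hS]; exact Finset.mem_insert_self _ _
    · rw [hi, hS]
      exact Finset.mem_insert_of_mem (Finset.mem_image_of_mem _ (Finset.mem_univ i))
  rw [Finset.sum_subset hsub (fun d _ hd => by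
    rw [MvPolynomial.notMem_support_iff.mp hd, zero_mul])]
  have hnot : (0 : Fin n →₀ ℕ) ∉ Finset.univ.image (fun i : Fin n => Finsupp.single i 1) := by
    intro h0
    rw [Finset.mem_image] at h0
    obtain ⟨i, _, hi⟩ := h0
    have := congrArg (fun d : Fin n →₀ ℕ => d i) hi
    simp at this
  rw [hS, Finset.sum_insert hnot]
  rw [Finset.sum_image (fun i _ j _ hij => Finsupp.single_left_injective one_ne_zero hij)]
  unfold aff
  have hterm : ∀ i : Fin n, ∏ j, sg (x j) ^ (Finsupp.single i 1 : Fin n →₀ ℕ) j = sg (x i) := by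
    intro i
    rw [Finset.prod_eq_single i]
    · simp
    · intro j _ hj
      rw [Finsupp.single_apply, if_neg (Ne.symm hj), pow_zero]
    · intro h; exact absurd (Finset.mem_univ i) h
  simp only [hterm]
  simp
  ring

end mvpoly

end Vale.Agent.H83.PTF
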