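import Vale.Agent.H83.PTF
import Vale.Agent.H83.EdgeLYM

namespace Vale.Agent.H83.PTFExact

open Finset Vale.Agent.H83.PTF Vale.Agent.H83.EdgeLYM

section cube

variable {n : ℕ}

/-- the point of the cube whose set of coordinates agreeing with `ε` is `A` -/
def pt (ε : Fin n → Bool) (A : Finset (Fin n)) : Fin n → Bool :=
  fun i => if i ∈ A then ε i else !(ε i)

/-- the set of coordinates at which `x` agrees with `ε` -/
def up (ε : Fin n → Bool) (x : Fin n → Bool) : Finset (Fin n) :=
  univ.filter (fun i => x i = ε i)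

lemma pt_up (ε x : Fin n → Bool) : pt ε (up ε x) = x := by
  funext i
  unfold pt up
  by_cases h : x i = ε i
  · simp [h]
  · simp only [Finset.mem_filter, Finset.mem_univ, true_and, h, if_false]
    revert h
    cases x i <;> cases ε i <;> simp

lemma up_pt (ε : Fin n → Bool) (A : Finset (Fin n)) : up ε (pt ε A) = A := by
  ext i
  unfold pt up
  by_cases h : i ∈ A <;> simp [h]

lemma pt_insert (ε : Fin n → Bool) (A : Finset (Fin n)) (i : Fin n) (hi : i ∉ A) :
    pt ε (insert i A) = flip (pt ε A) i := by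
  funext j
  by_cases h : j = i
  · subst h
    rw [flip_same]
    simp [pt, hi]
  · rw [flip_ne _ h]
    simp [pt, h]

/-- the cube edge from `pt ε A` to `pt ε (insert j A)` is sensitive for `f` -/
def sens (f : (Fin n → Bool) → Bool) (ε : Fin n → Bool) (A : Finset (Fin n)) (j : Fin n) : Prop :=
  f (pt ε A) ≠ f (pt ε (insert j A))

instance sensDecidable (f : (Fin n → Bool) → Bool) (ε : Fin n → Bool) :
    ∀ A j, Decidable (sens f ε A j) :=
  fun A j => inferInstanceAs (Decidable (f (pt ε A) ≠ f (pt ε (insert j A))))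

lemma card_sensitive (f : (Fin n → Bool) → Bool) (ε : Fin n → Bool) (i : Fin n) :
    (univ.filter (fun x : Fin n → Bool => f x ≠ f (flip x i))).card
      = 2 * ((univ.erase i).powerset.filter (fun A => sens f ε A i)).card := by
  classical
  set P : Finset (Fin n → Bool) := univ.filter (fun x => f x ≠ f (flip x i)) with hP
  have hsplit := Finset.card_filter_add_card_filter_not (s := P) (fun x => x i = ε i)
  have hdown : (P.filter (fun x => ¬ x i = ε i)).card
      = ((univ.erase i).powerset.filter (fun A => sens f ε A i)).card := by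
    apply Finset.card_bij (fun x _ => up ε x)
    · intro x hx
      rw [Finset.mem_filter, hP, Finset.mem_filter] at hx
      obtain ⟨⟨_, hx1⟩, hx2⟩ := hx
      have hiu : i ∉ up ε x := by simp [up, hx2]
      rw [Finset.mem_filter, Finset.mem_powerset, Finset.subset_erase]
      refine ⟨⟨Finset.subset_univ _, hiu⟩, ?_⟩
      unfold sens
      rw [pt_insert ε _ i hiu, pt_up]
      exact hx1
    · intro x _ y _ hxy
      rw [← pt_up ε x, ← pt_up ε y, hxy]
    · intro A hA
      rw [Finset.mem_filter, Finset.mem_powerset, Finset.subset_erase] at hA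
      obtain ⟨⟨_, hiA⟩, hs⟩ := hA
      refine ⟨pt ε A, ?_, up_pt ε A⟩
      rw [Finset.mem_filter, hP, Finset.mem_filter]
      refine ⟨⟨Finset.mem_univ _, ?_⟩, ?_⟩
      · rw [← pt_insert ε A i hiA]; exact hs
      · simp [pt, hiA]
  have hup : (P.filter (fun x => x i = ε i)).card = (P.filter (fun x => ¬ x i = ε i)).card := by
    apply Finset.card_bij (fun x _ => flip x i)
    · intro x hx
      rw [Finset.mem_filter, hP, Finset.mem_filter] at hx ⊢
      obtain ⟨⟨_, hx1⟩, hx2⟩ := hx
      refine ⟨⟨Finset.mem_univ _, ?_⟩, ?_⟩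
      · rw [PTF.flip_flip]; exact hx1.symm
      · rw [flip_same, hx2]; cases ε i <;> simp
    · intro x _ y _ hxy
      rw [← PTF.flip_flip x i, ← PTF.flip_flip y i, hxy]
    · intro y hy
      rw [Finset.mem_filter, hP, Finset.mem_filter] at hy
      obtain ⟨⟨_, hy1⟩, hy2⟩ := hy
      refine ⟨flip y i, ?_, PTF.flip_flip y i⟩
      rw [Finset.mem_filter, hP, Finset.mem_filter]
      refine ⟨⟨Finset.mem_univ _, ?_⟩, ?_⟩
      · rw [PTF.flip_flip]; exact hy1.symm
      · rw [flip_same]; revert hy2; cases y i <;> cases ε i <;> simp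
  omega

/-- number of sensitive edges whose lower endpoint has exactly `k` coordinates agreeing with `ε` -/
def lvl (f : (Fin n → Bool) → Bool) (ε : Fin n → Bool) (k : ℕ) : ℕ :=
  ∑ i : Fin n, (((univ.erase i).powersetCard k).filter (fun A => sens f ε A i)).card

lemma card_erase_univ (i : Fin n) : ((univ : Finset (Fin n)).erase i).card + 1 = n := by
  rw [Finset.card_erase_of_mem (Finset.mem_univ i), Finset.card_univ, Fintype.card_fin]
  have := i.pos
  omega

lemma sum_sensitive (f : (Fin n → Bool) → Bool) (ε : Fin n → Bool) :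
    ∑ i : Fin n, (univ.filter (fun x : Fin n → Bool => f x ≠ f (flip x i))).card
      = 2 * ∑ k ∈ range n, lvl f ε k := by
  classical
  simp only [card_sensitive f ε]
  rw [← Finset.mul_sum]
  congr 1
  unfold lvl
  rw [Finset.sum_comm]
  apply Finset.sum_congr rfl
  intro i _
  rw [Finset.card_filter, Finset.sum_powerset, card_erase_univ i]
  apply Finset.sum_congr rfl
  intro k _
  rw [Finset.card_filter]

lemma W_univ (f : (Fin n → Bool) → Bool) (ε : Fin n → Bool) :
    W (sens f ε) (univ : Finset (Fin n))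
      = ∑ k ∈ range n, lvl f ε k * (k.factorial * (n - 1 - k).factorial) := by
  classical
  unfold W lvl
  simp only [Finset.sum_mul]
  rw [Finset.sum_comm]
  apply Finset.sum_congr rfl
  intro i _
  rw [Finset.sum_powerset, card_erase_univ i]
  apply Finset.sum_congr rfl
  intro k _
  rw [Finset.card_filter, Finset.sum_mul]
  apply Finset.sum_congr rfl
  intro A hA
  have hAc : A.card = k := (Finset.mem_powersetCard.mp hA).2
  unfold g
  rw [hAc, Finset.card_univ, Fintype.card_fin]
  split_ifs <;> simp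

lemma lvl_le (f : (Fin n → Bool) → Bool) (ε : Fin n → Bool) (k : ℕ) :
    lvl f ε k ≤ n * (n - 1).choose k := by
  unfold lvl
  calc ∑ i : Fin n, (((univ.erase i).powersetCard k).filter (fun A => sens f ε A i)).card
      ≤ ∑ _i : Fin n, (n - 1).choose k := by
        apply Finset.sum_le_sum
        intro i _
        refine (Finset.card_filter_le _ _).trans ?_
        rw [Finset.card_powersetCard]
        have := card_erase_univ i
        have h2 : ((univ : Finset (Fin n)).erase i).card = n - 1 := by omega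
        rw [h2]
    _ = n * (n - 1).choose k := by simp

theorem exact_bound (f : (Fin n → Bool) → Bool) (ε : Fin n → Bool) (d : ℕ)
    (ρ : Finset (Fin n) → ℕ)
    (hmono : ∀ A j, j ∉ A → ρ A ≤ ρ (insert j A))
    (hstrict : ∀ A j, j ∉ A → sens f ε A j → ρ A + 1 ≤ ρ (insert j A))
    (hd : ρ univ ≤ ρ ∅ + d) :
    ∃ T ⊆ range n, T.card ≤ d ∧
      totalInfluence f ≤ 2 / 2 ^ n * ∑ k ∈ T, ((n * (n - 1).choose k : ℕ) : ℝ) := by
  classical
  have hlym := lym (sens f ε) ρ hmono hstrict (univ : Finset (Fin n))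
  rw [Finset.card_univ, Fintype.card_fin, W_univ] at hlym
  have hW : ∑ k ∈ range n, lvl f ε k * (k.factorial * (n - 1 - k).factorial)
      ≤ d * n.factorial := by
    have h1 : ρ univ * n.factorial ≤ (ρ ∅ + d) * n.factorial := Nat.mul_le_mul_right _ hd
    have h2 : (ρ ∅ + d) * n.factorial = ρ ∅ * n.factorial + d * n.factorial := by ring
    omega
  have hcL : ∀ k < n, (k.factorial * (n - 1 - k).factorial) * (n * (n - 1).choose k)
      = n.factorial := by
    intro k hk
    have h1 := Nat.choose_mul_factorial_mul_factorial (show k ≤ n - 1 by omega)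
    have h2 := Nat.mul_factorial_pred (show n ≠ 0 by omega)
    calc (k.factorial * (n - 1 - k).factorial) * (n * (n - 1).choose k)
        = n * ((n - 1).choose k * k.factorial * (n - 1 - k).factorial) := by ring
      _ = n * (n - 1).factorial := by rw [h1]
      _ = n.factorial := h2
  obtain ⟨T, hTs, hTc, hT⟩ := knapsack n d n.factorial
    (fun k => k.factorial * (n - 1 - k).factorial) (fun k => n * (n - 1).choose k)
    (lvl f ε) hcL (Nat.factorial_pos n) (fun k _ => lvl_le f ε k) hW
  refine ⟨T, hTs, hTc, ?_⟩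
  unfold totalInfluence
  rw [← Finset.sum_div]
  have hsum : (∑ i : Fin n, ((univ.filter (fun x : Fin n → Bool => f x ≠ f (flip x i))).card : ℝ))
      = 2 * ∑ k ∈ range n, (lvl f ε k : ℝ) := by
    have := sum_sensitive f ε
    exact_mod_cast this
  rw [hsum]
  have hT' : (∑ k ∈ range n, (lvl f ε k : ℝ)) ≤ ∑ k ∈ T, ((n * (n - 1).choose k : ℕ) : ℝ) := by
    exact_mod_cast hT
  have hpow : (0 : ℝ) < 2 ^ n := by positivity
  rw [div_le_iff₀ hpow]
  calc 2 * ∑ k ∈ range n, (lvl f ε k : ℝ)
      ≤ 2 * ∑ k ∈ T, ((n * (n - 1).choose k : ℕ) : ℝ) := by linarith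
    _ = (2 / 2 ^ n * ∑ k ∈ T, ((n * (n - 1).choose k : ℕ) : ℝ)) * 2 ^ n := by
        field_simp

end cube

section single

variable {n : ℕ}

lemma exists_root_between (q : Polynomial ℝ) {s t : ℝ} (hst : s ≤ t)
    (hs : q.eval s ≠ 0) (ht : q.eval t ≠ 0) (hne : ¬ (0 < q.eval s ↔ 0 < q.eval t)) :
    ∃ r, s < r ∧ r < t ∧ q.eval r = 0 := by
  have hex : ∃ r ∈ Set.Icc s t, q.eval r = 0 := by
    rcases lt_or_gt_of_ne hs with hs' | hs' <;> rcases lt_or_gt_of_ne ht with ht' | ht'
    · exfalso; apply hne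
      constructor
      · intro h; exact absurd h (not_lt.mpr hs'.le)
      · intro h; exact absurd h (not_lt.mpr ht'.le)
    · have := intermediate_value_Icc hst q.continuous.continuousOn
        (show (0:ℝ) ∈ Set.Icc (q.eval s) (q.eval t) from ⟨hs'.le, ht'.le⟩)
      obtain ⟨r, hr, hr0⟩ := this
      exact ⟨r, hr, hr0⟩
    · have := intermediate_value_Icc' hst q.continuous.continuousOn
        (show (0:ℝ) ∈ Set.Icc (q.eval t) (q.eval s) from ⟨ht'.le, hs'.le⟩)
      obtain ⟨r, hr, hr0⟩ := this
      exact ⟨r, hr, hr0⟩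
    · exfalso; apply hne
      exact ⟨fun _ => ht', fun _ => hs'⟩
  obtain ⟨r, ⟨hr1, hr2⟩, hr0⟩ := hex
  refine ⟨r, lt_of_le_of_ne hr1 ?_, lt_of_le_of_ne hr2 ?_, hr0⟩
  · rintro rfl; exact hs hr0
  · rintro rfl; exact ht hr0

lemma exists_perturbation (w : Fin n → ℝ) (c : ℝ) (q : Polynomial ℝ) :
    ∃ q' : Polynomial ℝ, q'.natDegree = q.natDegree ∧
      (∀ x : Fin n → Bool, q'.eval (aff w c x) ≠ 0) ∧
      ∀ x : Fin n → Bool, (0 ≤ q.eval (aff w c x) ↔ 0 < q'.eval (aff w c x)) := by
  classical
  obtain ⟨δ, hδ, hneg⟩ : ∃ δ : ℝ, 0 < δ ∧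
      ∀ x : Fin n → Bool, q.eval (aff w c x) < 0 → q.eval (aff w c x) + δ < 0 := by
    set Ng : Finset (Fin n → Bool) := univ.filter (fun x => q.eval (aff w c x) < 0) with hNg
    rcases Finset.eq_empty_or_nonempty Ng with hemp | hne
    · refine ⟨1, one_pos, ?_⟩
      intro x hx
      have : x ∈ Ng := by rw [hNg, Finset.mem_filter]; exact ⟨Finset.mem_univ _, hx⟩
      rw [hemp] at this
      exact absurd this (Finset.notMem_empty x)
    · obtain ⟨x0, hx0, hmin⟩ := Finset.exists_min_image Ng (fun x => - q.eval (aff w c x)) hne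
      have hx0neg : q.eval (aff w c x0) < 0 := by
        rw [hNg, Finset.mem_filter] at hx0; exact hx0.2
      refine ⟨- q.eval (aff w c x0) / 2, by linarith, ?_⟩
      intro x hx
      have hxN : x ∈ Ng := by rw [hNg, Finset.mem_filter]; exact ⟨Finset.mem_univ _, hx⟩
      have := hmin x hxN
      linarith
  refine ⟨q + Polynomial.C δ, Polynomial.natDegree_add_C, ?_, ?_⟩
  · intro x
    rw [Polynomial.eval_add, Polynomial.eval_C]
    rcases lt_or_ge (q.eval (aff w c x)) 0 with h | h
    · exact (hneg x h).ne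
    · have : 0 < q.eval (aff w c x) + δ := by linarith
      exact this.ne'
  · intro x
    rw [Polynomial.eval_add, Polynomial.eval_C]
    constructor
    · intro h; linarith
    · intro h
      by_contra hcon
      have := hneg x (not_le.mp hcon)
      linarith

theorem single_index (d : ℕ) (w : Fin n → ℝ) (c : ℝ) (q : Polynomial ℝ) (hq : q.natDegree ≤ d)
    (f : (Fin n → Bool) → Bool) (hf : ∀ x, f x = true ↔ 0 ≤ q.eval (aff w c x)) :
    ∃ T ⊆ range n, T.card ≤ d ∧
      totalInfluence f ≤ 2 / 2 ^ n * ∑ k ∈ T, ((n * (n - 1).choose k : ℕ) : ℝ) := by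
  classical
  obtain ⟨q', hq'deg, hq'ne, hq'f⟩ := exists_perturbation w c q
  have hf' : ∀ x, f x = true ↔ 0 < q'.eval (aff w c x) := fun x => (hf x).trans (hq'f x)
  have hq'0 : q' ≠ 0 := by
    intro h0
    have := hq'ne (fun _ => true)
    rw [h0] at this
    simp at this
  set ε : Fin n → Bool := fun i => decide (0 ≤ w i) with hε
  have hupmove : ∀ (A : Finset (Fin n)) (j : Fin n), j ∉ A →
      aff w c (pt ε A) ≤ aff w c (pt ε (insert j A)) := by
    intro A j hj
    rw [pt_insert ε A j hj, aff_flip]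
    have hptj : pt ε A j = !(ε j) := by simp [pt, hj]
    rw [hptj, hε]
    by_cases hw : 0 ≤ w j
    · simp [hw, sg]
    · simp [hw, sg]; linarith [not_le.mp hw]
  set ρ : Finset (Fin n) → ℕ := fun A =>
    (q'.roots.toFinset.filter (fun r => r < aff w c (pt ε A))).card with hρ
  have hmono : ∀ A j, j ∉ A → ρ A ≤ ρ (insert j A) := by
    intro A j hj
    apply Finset.card_le_card
    intro r hr
    rw [Finset.mem_filter] at hr ⊢
    exact ⟨hr.1, lt_of_lt_of_le hr.2 (hupmove A j hj)⟩
  have hstrict : ∀ A j, j ∉ A → sens f ε A j → ρ A + 1 ≤ ρ (insert j A) := by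
    intro A j hj hs
    unfold sens at hs
    have hne : ¬ (0 < q'.eval (aff w c (pt ε A)) ↔ 0 < q'.eval (aff w c (pt ε (insert j A)))) := by
      intro hiff
      apply hs
      rw [Bool.eq_iff_iff, hf', hf']
      exact hiff
    obtain ⟨r, hr1, hr2, hr0⟩ := exists_root_between q' (hupmove A j hj) (hq'ne _) (hq'ne _) hne
    apply Nat.succ_le_of_lt
    apply Finset.card_lt_card
    rw [Finset.ssubset_iff_of_subset]
    · refine ⟨r, ?_, ?_⟩
      · rw [Finset.mem_filter, Multiset.mem_toFinset, Polynomial.mem_roots hq'0]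
        exact ⟨hr0, hr2⟩
      · rw [Finset.mem_filter]
        intro h
        exact absurd h.2 (not_lt.mpr hr1.le)
    · intro r' hr'
      rw [Finset.mem_filter] at hr' ⊢
      exact ⟨hr'.1, lt_of_lt_of_le hr'.2 (hupmove A j hj)⟩
  have hd : ρ univ ≤ ρ ∅ + d := by
    have h1 : ρ univ ≤ q'.roots.toFinset.card := Finset.card_filter_le _ _
    have h2 := (Multiset.toFinset_card_le q'.roots).trans (Polynomial.card_roots' q')
    omega
  exact exact_bound f ε d ρ hmono hstrict hd

end single

end Vale.Agent.H83.PTFExact
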