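import Vale.Agent.H83.PTF

namespace Vale.Agent.H83.ParityBound

open Finset Vale.Agent.H83.PTF

variable {n : ℕ}

/-- the subcube through `z` whose free coordinates are those in `J` -/
def fiber (J : Finset (Fin n)) (z : Fin n → Bool) : Finset (Fin n → Bool) :=
  univ.filter (fun x => ∀ i, i ∉ J → x i = z i)

/-- the character (parity) of the coordinates in `S` -/
def chi (S : Finset (Fin n)) (x : Fin n → Bool) : ℝ := ∏ i ∈ S, sg (x i)

lemma mem_fiber {J : Finset (Fin n)} {z x : Fin n → Bool} :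
    x ∈ fiber J z ↔ ∀ i, i ∉ J → x i = z i := by
  simp [fiber]

lemma self_mem_fiber (J : Finset (Fin n)) (z : Fin n → Bool) : z ∈ fiber J z := by
  simp [mem_fiber]

lemma flip_mem_fiber {J : Finset (Fin n)} {z x : Fin n → Bool} {j : Fin n} (hj : j ∈ J)
    (hx : x ∈ fiber J z) : flip x j ∈ fiber J z := by
  rw [mem_fiber] at hx ⊢
  intro i hi
  have hij : i ≠ j := fun h => hi (h ▸ hj)
  rw [flip_ne x hij]
  exact hx i hi

lemma chi_flip_of_mem {S : Finset (Fin n)} {j : Fin n} (hj : j ∈ S) (x : Fin n → Bool) :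
    chi S (flip x j) = - chi S x := by
  unfold chi
  rw [← Finset.mul_prod_erase S _ hj, ← Finset.mul_prod_erase S (fun i => sg (x i)) hj,
    flip_same, sg_not]
  have : ∏ i ∈ S.erase j, sg (flip x j i) = ∏ i ∈ S.erase j, sg (x i) := by
    refine Finset.prod_congr rfl (fun i hi => ?_)
    rw [flip_ne x (Finset.ne_of_mem_erase hi)]
  rw [this]
  ring

lemma chi_flip_of_notMem {S : Finset (Fin n)} {j : Fin n} (hj : j ∉ S) (x : Fin n → Bool) :
    chi S (flip x j) = chi S x := by
  unfold chi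
  refine Finset.prod_congr rfl (fun i hi => ?_)
  have : i ≠ j := fun h => hj (h ▸ hi)
  rw [flip_ne x this]

lemma chi_mul_self (S : Finset (Fin n)) (x : Fin n → Bool) : chi S x * chi S x = 1 := by
  unfold chi
  rw [← Finset.prod_mul_distrib]
  exact Finset.prod_eq_one (fun i _ => sg_sq (x i))

lemma chi_eq_one_or (S : Finset (Fin n)) (x : Fin n → Bool) : chi S x = 1 ∨ chi S x = -1 := by
  have h := chi_mul_self S x
  have : (chi S x - 1) * (chi S x + 1) = 0 := by ring_nf; nlinarith
  rcases mul_eq_zero.mp this with h1 | h1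
  · left; linarith
  · right; linarith

/-- a sum over a subcube vanishes if flipping a free coordinate negates the summand -/
lemma sum_fiber_eq_zero {J : Finset (Fin n)} (z : Fin n → Bool) {j : Fin n} (hj : j ∈ J)
    (h : (Fin n → Bool) → ℝ) (hh : ∀ x, h (PTF.flip x j) = - h x) :
    ∑ x ∈ fiber J z, h x = 0 := by
  have h1 : ∑ x ∈ fiber J z, h x = ∑ x ∈ fiber J z, h (PTF.flip x j) := by
    refine Finset.sum_nbij' (fun x => PTF.flip x j) (fun x => PTF.flip x j) ?_ ?_ ?_ ?_ ?_
    · intro x hx; exact flip_mem_fiber hj hx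
    · intro x hx; exact flip_mem_fiber hj hx
    · intro x _; exact PTF.flip_flip x j
    · intro x _; exact PTF.flip_flip x j
    · intro x _; rw [PTF.flip_flip]
  have h2 : ∑ x ∈ fiber J z, h (PTF.flip x j) = - ∑ x ∈ fiber J z, h x := by
    rw [← Finset.sum_neg_distrib]
    exact Finset.sum_congr rfl (fun x _ => hh x)
  linarith

/-- characters of distinct subsets of `J` are orthogonal on every `J`-subcube -/
lemma sum_fiber_chi_mul_chi {J S T : Finset (Fin n)} (z : Fin n → Bool) (hS : S ⊆ J) (hT : T ⊆ J)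
    (hne : S ≠ T) : ∑ x ∈ fiber J z, chi S x * chi T x = 0 := by
  have : ∃ j, (j ∈ S ∧ j ∉ T) ∨ (j ∉ S ∧ j ∈ T) := by
    by_contra hcon
    push Not at hcon
    apply hne
    ext j
    constructor
    · intro hjS
      exact (hcon j).1 hjS
    · intro hjT
      by_contra hjS
      exact (hcon j).2 hjS hjT
  obtain ⟨j, hj⟩ := this
  rcases hj with ⟨h1, h2⟩ | ⟨h1, h2⟩
  · refine sum_fiber_eq_zero z (hS h1) _ (fun x => ?_)
    rw [chi_flip_of_mem h1, chi_flip_of_notMem h2]; ring
  · refine sum_fiber_eq_zero z (hT h2) _ (fun x => ?_)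
    rw [chi_flip_of_notMem h1, chi_flip_of_mem h2]; ring

lemma mono_flip (m : Fin n →₀ ℕ) {j : Fin n} (hj : m j = 0) (x : Fin n → Bool) :
    ∏ i, sg (flip x j i) ^ m i = ∏ i, sg (x i) ^ m i := by
  refine Finset.prod_congr rfl (fun i _ => ?_)
  by_cases h : i = j
  · subst h; rw [hj]; simp
  · rw [flip_ne x h]


/-- evaluation of a polynomial at a point of the cube -/
noncomputable def ev (p : MvPolynomial (Fin n) ℝ) (x : Fin n → Bool) : ℝ :=
  MvPolynomial.eval (fun i => sg (x i)) p

lemma card_support_le_of_totalDegree {d : ℕ} (p : MvPolynomial (Fin n) ℝ) (hp : p.totalDegree ≤ d)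
    {m : Fin n →₀ ℕ} (hm : m ∈ p.support) : m.support.card ≤ d := by
  have h1 : (m.sum fun _ e => e) ≤ p.totalDegree := MvPolynomial.le_totalDegree hm
  have h2 : m.support.card ≤ m.sum fun _ e => e := by
    rw [Finsupp.sum, Finset.card_eq_sum_ones]
    refine Finset.sum_le_sum (fun i hi => ?_)
    have := Finsupp.mem_support_iff.mp hi
    omega
  omega

/-- the key orthogonality on a subcube: a product of two characters of small subsets of `J` and a
low-degree polynomial is orthogonal to the parity of `J` -/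
lemma orth {d r : ℕ} {J S S' : Finset (Fin n)} (z : Fin n → Bool) (p : MvPolynomial (Fin n) ℝ)
    (hp : p.totalDegree ≤ d) (hS : S ⊆ J) (hS' : S' ⊆ J) (hSc : S.card ≤ r) (hSc' : S'.card ≤ r)
    (hk : 2 * r + d < J.card) :
    ∑ x ∈ fiber J z, chi S x * chi S' x * ev p x * chi J x = 0 := by
  unfold ev
  simp only [MvPolynomial.eval_eq']
  have hexp : ∀ x : Fin n → Bool,
      chi S x * chi S' x * (∑ m ∈ p.support, p.coeff m * ∏ i, sg (x i) ^ m i) * chi J x
      = ∑ m ∈ p.support, p.coeff m * (chi S x * chi S' x * (∏ i, sg (x i) ^ m i) * chi J x) := by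
    intro x
    rw [Finset.mul_sum, Finset.sum_mul]
    refine Finset.sum_congr rfl (fun m _ => ?_)
    ring
  simp only [hexp]
  rw [Finset.sum_comm]
  refine Finset.sum_eq_zero (fun m hm => ?_)
  rw [← Finset.mul_sum]
  have hmd : m.support.card ≤ d := card_support_le_of_totalDegree p hp hm
  have hcard : (S ∪ S' ∪ m.support).card < J.card := by
    have h1 := Finset.card_union_le (S ∪ S') m.support
    have h2 := Finset.card_union_le S S'
    omega
  obtain ⟨j, hjJ, hj⟩ := Finset.exists_mem_notMem_of_card_lt_card hcard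
  simp only [Finset.mem_union, not_or] at hj
  have hmj : m j = 0 := by
    by_contra h
    exact hj.2 (Finsupp.mem_support_iff.mpr h)
  rw [sum_fiber_eq_zero z hjJ _ (fun x => ?_), mul_zero]
  rw [chi_flip_of_notMem hj.1.1, chi_flip_of_notMem hj.1.2, mono_flip m hmj, chi_flip_of_mem hjJ]
  ring

/-- subsets of `J` with at most `r` elements -/
def lowSets (J : Finset (Fin n)) (r : ℕ) : Finset (Finset (Fin n)) :=
  J.powerset.filter (fun S => S.card ≤ r)

lemma mem_lowSets {J S : Finset (Fin n)} {r : ℕ} : S ∈ lowSets J r ↔ S ⊆ J ∧ S.card ≤ r := by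
  simp [lowSets]

/-- Aspnes-Beigel-Furst-Rudich type counting on a subcube: if `g = ±1` is the sign of
`p * parity_J`, with `p` nowhere zero of degree `≤ d` and `2 r + d < |J|`, then each value of `g`
is taken at least as many times as there are subsets of `J` of size `≤ r`. -/
lemma abfr {d r : ℕ} {J : Finset (Fin n)} (z : Fin n → Bool) (p : MvPolynomial (Fin n) ℝ)
    (hp : p.totalDegree ≤ d) (hk : 2 * r + d < J.card)
    (g : (Fin n → Bool) → ℝ) (hg : ∀ x, g x = 1 ∨ g x = -1)
    (hpg : ∀ x, ev p x * chi J x = |ev p x| * g x) (hne : ∀ x, ev p x ≠ 0)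
    (s : ℝ) (hs : s = 1 ∨ s = -1) :
    (lowSets J r).card ≤ ((fiber J z).filter (fun x => g x = s)).card := by
  by_contra hlt
  push Not at hlt
  let φ : (↥(lowSets J r) → ℝ) →ₗ[ℝ] (↥((fiber J z).filter (fun x => g x = s)) → ℝ) :=
    { toFun := fun c x => ∑ S : ↥(lowSets J r), c S * chi S.1 x.1
      map_add' := by
        intro c c'
        funext x
        simp only [Pi.add_apply, add_mul, Finset.sum_add_distrib]
      map_smul' := by
        intro a c
        funext x
        simp only [Pi.smul_apply, smul_eq_mul, RingHom.id_apply, Finset.mul_sum, mul_assoc] }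
  have hker : LinearMap.ker φ ≠ ⊥ := by
    apply LinearMap.ker_ne_bot_of_finrank_lt
    rw [Module.finrank_fintype_fun_eq_card, Module.finrank_fintype_fun_eq_card, Fintype.card_coe,
      Fintype.card_coe]
    exact hlt
  obtain ⟨c, hcker, hc0⟩ := (Submodule.ne_bot_iff _).mp hker
  apply hc0
  -- the polynomial q
  obtain ⟨q, hqdef⟩ : ∃ q : (Fin n → Bool) → ℝ, ∀ x, q x = ∑ S : ↥(lowSets J r), c S * chi S.1 x :=
    ⟨_, fun _ => rfl⟩
  have hqB : ∀ x ∈ (fiber J z).filter (fun x => g x = s), q x = 0 := by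
    intro x hx
    have h1 : φ c = 0 := LinearMap.mem_ker.mp hcker
    have h2 := congrFun h1 ⟨x, hx⟩
    rw [hqdef]
    exact h2
  -- orthogonality
  have horth : ∑ x ∈ fiber J z, q x * q x * ev p x * chi J x = 0 := by
    have hexp : ∀ x, q x * q x * ev p x * chi J x
        = ∑ S : ↥(lowSets J r), ∑ S' : ↥(lowSets J r),
            c S * c S' * (chi S.1 x * chi S'.1 x * ev p x * chi J x) := by
      intro x
      rw [hqdef, Finset.sum_mul_sum, Finset.sum_mul, Finset.sum_mul]
      refine Finset.sum_congr rfl (fun S _ => ?_)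
      rw [Finset.sum_mul, Finset.sum_mul]
      refine Finset.sum_congr rfl (fun S' _ => ?_)
      ring
    simp only [hexp]
    rw [Finset.sum_comm]
    refine Finset.sum_eq_zero (fun S _ => ?_)
    rw [Finset.sum_comm]
    refine Finset.sum_eq_zero (fun S' _ => ?_)
    rw [← Finset.mul_sum]
    have hS := mem_lowSets.mp S.2
    have hS' := mem_lowSets.mp S'.2
    rw [orth z p hp hS.1 hS'.1 hS.2 hS'.2 hk, mul_zero]
  -- q vanishes on the rest of the subcube
  have hqF : ∀ x ∈ fiber J z, q x = 0 := by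
    intro x hx
    by_cases hxs : g x = s
    · exact hqB x (Finset.mem_filter.mpr ⟨hx, hxs⟩)
    · have hsplit := Finset.sum_filter_add_sum_filter_not (fiber J z) (fun x => g x = s)
        (fun x => q x * q x * ev p x * chi J x)
      rw [horth] at hsplit
      have h1 : ∑ x ∈ (fiber J z).filter (fun x => g x = s), q x * q x * ev p x * chi J x = 0 := by
        refine Finset.sum_eq_zero (fun y hy => ?_)
        rw [hqB y hy]; ring
      rw [h1, zero_add] at hsplit
      have h2 : ∑ x ∈ (fiber J z).filter (fun x => ¬ g x = s), q x * q x * ev p x * chi J x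
          = (-s) * ∑ x ∈ (fiber J z).filter (fun x => ¬ g x = s), q x * q x * |ev p x| := by
        rw [Finset.mul_sum]
        refine Finset.sum_congr rfl (fun y hy => ?_)
        have hy2 := (Finset.mem_filter.mp hy).2
        have hgy : g y = -s := by
          rcases hg y with h | h <;> rcases hs with h' | h'
          · exact absurd (h.trans h'.symm) hy2
          · rw [h, h']; ring
          · rw [h, h']
          · exact absurd (h.trans h'.symm) hy2
        rw [mul_assoc, hpg y, hgy]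
        ring
      rw [h2] at hsplit
      have hs0 : (-s) ≠ 0 := by
        rcases hs with h | h <;> rw [h] <;> norm_num
      have h3 : ∑ x ∈ (fiber J z).filter (fun x => ¬ g x = s), q x * q x * |ev p x| = 0 := by
        rcases mul_eq_zero.mp hsplit with h | h
        · exact absurd h hs0
        · exact h
      have h4 := (Finset.sum_eq_zero_iff_of_nonneg (fun y _ =>
        mul_nonneg (mul_self_nonneg (q y)) (abs_nonneg (ev p y)))).mp h3 x
        (Finset.mem_filter.mpr ⟨hx, hxs⟩)
      have h5 : |ev p x| ≠ 0 := abs_ne_zero.mpr (hne x)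
      have h6 : q x * q x = 0 := by
        rcases mul_eq_zero.mp h4 with h | h
        · exact h
        · exact absurd h h5
      exact mul_self_eq_zero.mp h6
  -- hence all coefficients vanish
  funext T
  have hT := mem_lowSets.mp T.2
  have h1 : ∑ x ∈ fiber J z, q x * chi T.1 x = 0 := by
    refine Finset.sum_eq_zero (fun x hx => ?_)
    rw [hqF x hx, zero_mul]
  have h2 : ∑ x ∈ fiber J z, q x * chi T.1 x = c T * ((fiber J z).card : ℝ) := by
    have hexp : ∀ x, q x * chi T.1 x = ∑ S : ↥(lowSets J r), c S * (chi S.1 x * chi T.1 x) := by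
      intro x
      rw [hqdef, Finset.sum_mul]
      refine Finset.sum_congr rfl (fun S _ => ?_)
      ring
    simp only [hexp]
    rw [Finset.sum_comm]
    rw [Finset.sum_eq_single T]
    · rw [← Finset.mul_sum]
      congr 1
      rw [Finset.sum_congr rfl (fun x _ => chi_mul_self T.1 x)]
      simp
    · intro S _ hST
      rw [← Finset.mul_sum]
      have hS := mem_lowSets.mp S.2
      have hne' : S.1 ≠ T.1 := fun h => hST (Subtype.ext h)
      rw [sum_fiber_chi_mul_chi z hS.1 hT.1 hne', mul_zero]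
    · intro h
      exact absurd (Finset.mem_univ T) h
  rw [h1] at h2
  have hFpos : ((fiber J z).card : ℝ) ≠ 0 := by
    have : 0 < (fiber J z).card := Finset.card_pos.mpr ⟨z, self_mem_fiber J z⟩
    positivity
  rcases mul_eq_zero.mp h2.symm with h | h
  · simpa using h
  · exact absurd h hFpos


section poincare

lemma flip_mem_fiber_flip {J : Finset (Fin n)} {z x : Fin n → Bool} (j : Fin n)
    (hx : x ∈ fiber J z) : PTF.flip x j ∈ fiber J (PTF.flip z j) := by
  rw [mem_fiber] at hx ⊢
  intro i hi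
  by_cases hij : i = j
  · subst hij
    rw [flip_same, flip_same, hx i hi]
  · rw [flip_ne x hij, flip_ne z hij]
    exact hx i hi

lemma fiber_insert {J : Finset (Fin n)} {j : Fin n} (hj : j ∉ J) (z : Fin n → Bool) :
    fiber (insert j J) z = fiber J z ∪ fiber J (PTF.flip z j) := by
  ext x
  simp only [Finset.mem_union, mem_fiber, Finset.mem_insert, not_or]
  constructor
  · intro h
    by_cases hxj : x j = z j
    · left
      intro i hi
      by_cases hij : i = j
      · subst hij; exact hxj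
      · exact h i ⟨hij, hi⟩
    · right
      intro i hi
      by_cases hij : i = j
      · subst hij
        rw [flip_same]
        cases hx : x i <;> cases hz : z i <;> simp_all
      · rw [flip_ne z hij]
        exact h i ⟨hij, hi⟩
  · rintro (h | h) i ⟨hij, hi⟩
    · exact h i hi
    · rw [h i hi, flip_ne z hij]

lemma fiber_disjoint {J : Finset (Fin n)} {j : Fin n} (hj : j ∉ J) (z : Fin n → Bool) :
    Disjoint (fiber J z) (fiber J (PTF.flip z j)) := by
  rw [Finset.disjoint_left]
  intro x hx hx'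
  rw [mem_fiber] at hx hx'
  have h1 := hx j hj
  have h2 := hx' j hj
  rw [flip_same, h1] at h2
  revert h2
  cases z j <;> decide

/-- number of points of `A` in a subcube -/
def cnt (A : Finset (Fin n → Bool)) (J : Finset (Fin n)) (z : Fin n → Bool) : ℕ :=
  ((fiber J z).filter (fun x => x ∈ A)).card

/-- number of pairs (point of `A` in the subcube, free direction leading out of `A`) -/
def bdry (A : Finset (Fin n → Bool)) (J : Finset (Fin n)) (z : Fin n → Bool) : ℕ :=
  ∑ i ∈ J, ((fiber J z).filter (fun x => x ∈ A ∧ PTF.flip x i ∉ A)).card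

lemma cnt_le_add (A : Finset (Fin n → Bool)) (J : Finset (Fin n)) (z : Fin n → Bool) (j : Fin n) :
    cnt A J z ≤ cnt A J (PTF.flip z j)
      + ((fiber J z).filter (fun x => x ∈ A ∧ PTF.flip x j ∉ A)).card := by
  unfold cnt
  have h1 : (fiber J z).filter (fun x => x ∈ A)
      = (fiber J z).filter (fun x => x ∈ A ∧ PTF.flip x j ∈ A)
        ∪ (fiber J z).filter (fun x => x ∈ A ∧ PTF.flip x j ∉ A) := by
    ext x
    simp only [Finset.mem_union, Finset.mem_filter]
    tauto
  rw [h1]
  refine (Finset.card_union_le _ _).trans ?_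
  refine Nat.add_le_add_right ?_ _
  refine Finset.card_le_card_of_injOn (fun x => PTF.flip x j) ?_ ?_
  · intro x hx
    have hx' := Finset.mem_filter.mp (Finset.mem_coe.mp hx)
    exact Finset.mem_coe.mpr (Finset.mem_filter.mpr ⟨flip_mem_fiber_flip j hx'.1, hx'.2.2⟩)
  · intro x _ y _ hxy
    have := congrArg (fun w => PTF.flip w j) hxy
    simpa [PTF.flip_flip] using this

/-- the edge-isoperimetric (Poincare) inequality on every subcube -/
lemma poincare (A : Finset (Fin n → Bool)) (J : Finset (Fin n)) :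
    ∀ z : Fin n → Bool, (fiber J z).card = 2 ^ J.card ∧
      2 * (cnt A J z : ℝ) * (2 ^ J.card - (cnt A J z : ℝ)) ≤ (bdry A J z : ℝ) * 2 ^ J.card := by
  induction J using Finset.induction_on with
  | empty =>
    intro z
    have hF : fiber (∅ : Finset (Fin n)) z = {z} := by
      ext x
      simp only [mem_fiber, Finset.notMem_empty, not_false_eq_true, forall_const,
        Finset.mem_singleton]
      constructor
      · intro h; funext i; exact h i
      · intro h i; rw [h]
    refine ⟨by rw [hF, Finset.card_singleton, Finset.card_empty, pow_zero], ?_⟩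
    have hc : cnt A ∅ z ≤ 1 := by
      unfold cnt
      rw [hF]
      exact (Finset.card_filter_le _ _).trans (by simp)
    have hb : bdry A ∅ z = 0 := by simp [bdry]
    rw [hb]
    simp only [Finset.card_empty, pow_zero, Nat.cast_zero, zero_mul]
    interval_cases h : cnt A ∅ z <;> simp
  | insert j J hj ih =>
    intro z
    obtain ⟨hF0, hP0⟩ := ih z
    obtain ⟨hF1, hP1⟩ := ih (PTF.flip z j)
    have hdisj := fiber_disjoint hj z
    have hcard : (insert j J).card = J.card + 1 := Finset.card_insert_of_notMem hj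
    have hFcard : (fiber (insert j J) z).card = 2 ^ (insert j J).card := by
      rw [fiber_insert hj, Finset.card_union_of_disjoint hdisj, hF0, hF1, hcard]
      ring
    refine ⟨hFcard, ?_⟩
    have hcnt : cnt A (insert j J) z = cnt A J z + cnt A J (PTF.flip z j) := by
      unfold cnt
      rw [fiber_insert hj, Finset.filter_union,
        Finset.card_union_of_disjoint (Finset.disjoint_filter_filter hdisj)]
    have hfil : ∀ i, ((fiber (insert j J) z).filter (fun x => x ∈ A ∧ PTF.flip x i ∉ A)).card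
        = ((fiber J z).filter (fun x => x ∈ A ∧ PTF.flip x i ∉ A)).card
          + ((fiber J (PTF.flip z j)).filter (fun x => x ∈ A ∧ PTF.flip x i ∉ A)).card := by
      intro i
      rw [fiber_insert hj, Finset.filter_union,
        Finset.card_union_of_disjoint (Finset.disjoint_filter_filter hdisj)]
    have hbd : bdry A (insert j J) z = bdry A J z + bdry A J (PTF.flip z j)
        + (((fiber J z).filter (fun x => x ∈ A ∧ PTF.flip x j ∉ A)).card
          + ((fiber J (PTF.flip z j)).filter (fun x => x ∈ A ∧ PTF.flip x j ∉ A)).card) := by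
      unfold bdry
      rw [Finset.sum_insert hj]
      simp only [hfil, Finset.sum_add_distrib]
      ring
    have hc0 := cnt_le_add A J z j
    have hc1 := cnt_le_add A J (PTF.flip z j) j
    rw [PTF.flip_flip] at hc1
    have ha0 : cnt A J z ≤ 2 ^ J.card := by
      rw [← hF0]; exact Finset.card_filter_le _ _
    have ha1 : cnt A J (PTF.flip z j) ≤ 2 ^ J.card := by
      rw [← hF1]; exact Finset.card_filter_le _ _
    rw [hcnt, hbd, hcard]
    push_cast
    obtain ⟨a0, ha0def⟩ : ∃ a0 : ℝ, a0 = (cnt A J z : ℝ) := ⟨_, rfl⟩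
    obtain ⟨a1, ha1def⟩ : ∃ a1 : ℝ, a1 = (cnt A J (PTF.flip z j) : ℝ) := ⟨_, rfl⟩
    obtain ⟨b0, hb0def⟩ : ∃ b0 : ℝ, b0 = (bdry A J z : ℝ) := ⟨_, rfl⟩
    obtain ⟨b1, hb1def⟩ : ∃ b1 : ℝ, b1 = (bdry A J (PTF.flip z j) : ℝ) := ⟨_, rfl⟩
    obtain ⟨c0, hc0def⟩ : ∃ c0 : ℝ,
      c0 = (((fiber J z).filter (fun x => x ∈ A ∧ PTF.flip x j ∉ A)).card : ℝ) := ⟨_, rfl⟩
    obtain ⟨c1, hc1def⟩ : ∃ c1 : ℝ,
      c1 = (((fiber J (PTF.flip z j)).filter (fun x => x ∈ A ∧ PTF.flip x j ∉ A)).card : ℝ) :=
      ⟨_, rfl⟩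
    obtain ⟨N, hNdef⟩ : ∃ N : ℝ, N = (2 : ℝ) ^ J.card := ⟨_, rfl⟩
    have e0 : (a0 : ℝ) ≤ a1 + c0 := by
      rw [ha0def, ha1def, hc0def]; exact_mod_cast hc0
    have e1 : (a1 : ℝ) ≤ a0 + c1 := by
      rw [ha0def, ha1def, hc1def]; exact_mod_cast hc1
    have e2 : a0 ≤ N := by rw [ha0def, hNdef]; exact_mod_cast ha0
    have e3 : a1 ≤ N := by rw [ha1def, hNdef]; exact_mod_cast ha1
    have e4 : 0 ≤ a0 := by rw [ha0def]; positivity
    have e5 : 0 ≤ a1 := by rw [ha1def]; positivity
    have e6 : 0 ≤ c0 := by rw [hc0def]; positivity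
    have e7 : 0 ≤ c1 := by rw [hc1def]; positivity
    have e8 : 0 ≤ N := by rw [hNdef]; positivity
    rw [← ha0def, ← hNdef, ← hb0def] at hP0
    rw [← ha1def, ← hNdef, ← hb1def] at hP1
    rw [← ha0def, ← ha1def, ← hb0def, ← hb1def, ← hc0def, ← hc1def, pow_succ, ← hNdef]
    have key : (a0 - a1) * (a0 - a1) ≤ N * (c0 + c1) := by
      rcases le_total a0 a1 with h | h
      · have h1 : a1 - a0 ≤ N := by linarith
        have h2 : a1 - a0 ≤ c0 + c1 := by linarith
        have h3 : 0 ≤ a1 - a0 := by linarith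
        have := mul_le_mul h1 h2 h3 e8
        nlinarith
      · have h1 : a0 - a1 ≤ N := by linarith
        have h2 : a0 - a1 ≤ c0 + c1 := by linarith
        have h3 : 0 ≤ a0 - a1 := by linarith
        have := mul_le_mul h1 h2 h3 e8
        nlinarith
    nlinarith

end poincare


section combine

/-- double counting over subcubes: every point lies in the subcubes through `2 ^ |J|` base
points -/
lemma sum_sum_fiber (J : Finset (Fin n)) (φ : (Fin n → Bool) → ℝ) :
    ∑ z : Fin n → Bool, ∑ x ∈ fiber J z, φ x = 2 ^ J.card * ∑ x : Fin n → Bool, φ x := by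
  have h1 : ∀ z : Fin n → Bool,
      ∑ x ∈ fiber J z, φ x = ∑ x : Fin n → Bool, if z ∈ fiber J x then φ x else 0 := by
    intro z
    unfold fiber
    rw [Finset.sum_filter]
    refine Finset.sum_congr rfl (fun x _ => ?_)
    simp only [Finset.mem_filter, Finset.mem_univ, true_and]
    have : (∀ i, i ∉ J → x i = z i) ↔ (∀ i, i ∉ J → z i = x i) :=
      ⟨fun h i hi => (h i hi).symm, fun h i hi => (h i hi).symm⟩
    simp only [this]
  simp only [h1]
  rw [Finset.sum_comm, Finset.mul_sum]
  refine Finset.sum_congr rfl (fun x _ => ?_)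
  rw [← Finset.sum_filter, Finset.sum_const, nsmul_eq_mul]
  have : (univ.filter (fun z => z ∈ fiber J x)) = fiber J x := by ext z; simp
  rw [this, (poincare ∅ J x).1]
  push_cast
  ring

lemma card_cube_nat : (Finset.univ : Finset (Fin n → Bool)).card = 2 ^ n := by
  simp

/-- the sign of `f` times the parity of `J` -/
noncomputable def gsign (f : (Fin n → Bool) → Bool) (J : Finset (Fin n)) (x : Fin n → Bool) : ℝ :=
  sg (f x) * chi J x

lemma sg_eq_one_or (b : Bool) : sg b = 1 ∨ sg b = -1 := by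
  cases b <;> simp [sg]

lemma gsign_eq_one_or (f : (Fin n → Bool) → Bool) (J : Finset (Fin n)) (x : Fin n → Bool) :
    gsign f J x = 1 ∨ gsign f J x = -1 := by
  unfold gsign
  rcases sg_eq_one_or (f x) with h | h <;> rcases chi_eq_one_or J x with h' | h' <;>
    rw [h, h'] <;> norm_num

lemma gsign_flip (f : (Fin n → Bool) → Bool) {J : Finset (Fin n)} {i : Fin n} (hi : i ∈ J)
    (x : Fin n → Bool) :
    (f x = f (PTF.flip x i)) ↔
      ((gsign f J x = 1 ∧ ¬ gsign f J (PTF.flip x i) = 1)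
        ∨ (¬ gsign f J x = 1 ∧ gsign f J (PTF.flip x i) = 1)) := by
  unfold gsign
  rw [chi_flip_of_mem hi]
  rcases chi_eq_one_or J x with h' | h' <;> rw [h'] <;>
    cases hfx : f x <;> cases hfy : f (PTF.flip x i) <;> simp [sg] <;> norm_num

/-- for a free direction `i ∈ J`: the number of sensitive points plus twice the number of points
of `A = {gsign = 1}` whose `i`-neighbour is outside `A` is `2 ^ n` -/
lemma sens_add (f : (Fin n → Bool) → Bool) {J : Finset (Fin n)} {i : Fin n} (hi : i ∈ J) :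
    (univ.filter (fun x : Fin n → Bool => f x ≠ f (PTF.flip x i))).card
      + 2 * (univ.filter (fun x : Fin n → Bool =>
          gsign f J x = 1 ∧ ¬ gsign f J (PTF.flip x i) = 1)).card = 2 ^ n := by
  have h1 := Finset.card_filter_add_card_filter_not (s := (Finset.univ : Finset (Fin n → Bool)))
    (fun x : Fin n → Bool => f x ≠ f (PTF.flip x i))
  rw [card_cube_nat] at h1
  have h2 : (univ.filter (fun x : Fin n → Bool => ¬ f x ≠ f (PTF.flip x i)))
      = (univ.filter (fun x : Fin n → Bool =>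
          gsign f J x = 1 ∧ ¬ gsign f J (PTF.flip x i) = 1))
        ∪ (univ.filter (fun x : Fin n → Bool =>
          ¬ gsign f J x = 1 ∧ gsign f J (PTF.flip x i) = 1)) := by
    ext x
    simp only [Finset.mem_filter, Finset.mem_univ, true_and, Finset.mem_union, not_not]
    exact gsign_flip f hi x
  have h3 : Disjoint (univ.filter (fun x : Fin n → Bool =>
          gsign f J x = 1 ∧ ¬ gsign f J (PTF.flip x i) = 1))
        (univ.filter (fun x : Fin n → Bool =>
          ¬ gsign f J x = 1 ∧ gsign f J (PTF.flip x i) = 1)) := by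
    rw [Finset.disjoint_left]
    intro x hx hx'
    simp only [Finset.mem_filter, Finset.mem_univ, true_and] at hx hx'
    exact hx'.1 hx.1
  have h4 : (univ.filter (fun x : Fin n → Bool =>
          ¬ gsign f J x = 1 ∧ gsign f J (PTF.flip x i) = 1)).card
      = (univ.filter (fun x : Fin n → Bool =>
          gsign f J x = 1 ∧ ¬ gsign f J (PTF.flip x i) = 1)).card := by
    refine Finset.card_nbij' (fun x => PTF.flip x i) (fun x => PTF.flip x i) ?_ ?_ ?_ ?_
    · intro x hx
      simp only [Finset.coe_filter, Finset.mem_univ, true_and, Set.mem_ofPred_eq] at hx ⊢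
      rw [PTF.flip_flip]
      exact ⟨hx.2, hx.1⟩
    · intro x hx
      simp only [Finset.coe_filter, Finset.mem_univ, true_and, Set.mem_ofPred_eq] at hx ⊢
      rw [PTF.flip_flip]
      exact ⟨hx.2, hx.1⟩
    · intro x _; exact PTF.flip_flip x i
    · intro x _; exact PTF.flip_flip x i
  rw [h2, Finset.card_union_of_disjoint h3, h4] at h1
  omega

/-- the bound for the directions in a set `J` of more than `2 r + d` coordinates -/
lemma perJ {d r : ℕ} (p : MvPolynomial (Fin n) ℝ) (hp : p.totalDegree ≤ d)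
    (f : (Fin n → Bool) → Bool) (hpos : ∀ x, f x = true → 0 < ev p x)
    (hneg : ∀ x, f x = false → ev p x < 0) (J : Finset (Fin n)) (hk : 2 * r + d < J.card) :
    ∑ i ∈ J, ((univ.filter (fun x : Fin n → Bool => f x ≠ f (PTF.flip x i))).card : ℝ)
      ≤ 2 ^ n * ((J.card : ℝ) - 4 * ((lowSets J r).card : ℝ)
          * (2 ^ J.card - ((lowSets J r).card : ℝ)) / 4 ^ J.card) := by
  obtain ⟨A, hAdef⟩ : ∃ A : Finset (Fin n → Bool), A = univ.filter (fun x => gsign f J x = 1) :=
    ⟨_, rfl⟩
  have hA : ∀ x, x ∈ A ↔ gsign f J x = 1 := by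
    intro x; rw [hAdef]; simp
  obtain ⟨N, hNdef⟩ : ∃ N : ℝ, N = ((lowSets J r).card : ℝ) := ⟨_, rfl⟩
  obtain ⟨K, hKdef⟩ : ∃ K : ℝ, K = (2 : ℝ) ^ J.card := ⟨_, rfl⟩
  have hKpos : 0 < K := by rw [hKdef]; positivity
  have hpg : ∀ x, ev p x * chi J x = |ev p x| * gsign f J x := by
    intro x
    unfold gsign
    cases hfx : f x
    · have := hneg x hfx
      rw [abs_of_neg this]
      simp [sg]
    · have := hpos x hfx
      rw [abs_of_pos this]
      simp [sg]
  have hne : ∀ x, ev p x ≠ 0 := by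
    intro x
    cases hfx : f x
    · exact (hneg x hfx).ne
    · exact (hpos x hfx).ne'
  -- each subcube
  have hz : ∀ z : Fin n → Bool, 2 * N * (K - N) ≤ (bdry A J z : ℝ) * K := by
    intro z
    obtain ⟨hF, hP⟩ := poincare A J z
    have h1 := abfr z p hp hk (gsign f J) (gsign_eq_one_or f J) hpg hne 1 (Or.inl rfl)
    have h2 := abfr z p hp hk (gsign f J) (gsign_eq_one_or f J) hpg hne (-1) (Or.inr rfl)
    have h3 : cnt A J z = ((fiber J z).filter (fun x => gsign f J x = 1)).card := by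
      unfold cnt
      congr 1
      ext x
      simp only [Finset.mem_filter, hA]
    have h4 : ((fiber J z).filter (fun x => gsign f J x = -1)).card
        = ((fiber J z).filter (fun x => ¬ gsign f J x = 1)).card := by
      congr 1
      ext x
      simp only [Finset.mem_filter]
      constructor
      · rintro ⟨hx, h⟩
        exact ⟨hx, by rw [h]; norm_num⟩
      · rintro ⟨hx, h⟩
        rcases gsign_eq_one_or f J x with h' | h'
        · exact absurd h' h
        · exact ⟨hx, h'⟩
    have h5 := Finset.card_filter_add_card_filter_not (s := fiber J z)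
      (fun x => gsign f J x = 1)
    rw [hF, ← h4, ← h3] at h5
    rw [← h3] at h1
    have e1 : N ≤ (cnt A J z : ℝ) := by rw [hNdef]; exact_mod_cast h1
    have e2 : (cnt A J z : ℝ) + N ≤ K := by
      rw [hNdef, hKdef]
      have : cnt A J z + (lowSets J r).card ≤ 2 ^ J.card := by omega
      exact_mod_cast this
    rw [← hKdef] at hP
    nlinarith [mul_nonneg (sub_nonneg.mpr e1) (sub_nonneg.mpr e2)]
  -- sum over all base points
  have hsum : (2 : ℝ) ^ n * (2 * N * (K - N)) ≤ (∑ z : Fin n → Bool, (bdry A J z : ℝ)) * K := by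
    rw [Finset.sum_mul]
    have : (2 : ℝ) ^ n * (2 * N * (K - N)) = ∑ _z : Fin n → Bool, 2 * N * (K - N) := by
      rw [Finset.sum_const, nsmul_eq_mul, card_cube_nat]
      push_cast
      ring
    rw [this]
    exact Finset.sum_le_sum (fun z _ => hz z)
  have hbd : (∑ z : Fin n → Bool, (bdry A J z : ℝ))
      = K * ∑ i ∈ J, ((univ.filter (fun x : Fin n → Bool =>
          gsign f J x = 1 ∧ ¬ gsign f J (PTF.flip x i) = 1)).card : ℝ) := by
    unfold bdry
    push_cast
    rw [Finset.sum_comm, Finset.mul_sum]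
    refine Finset.sum_congr rfl (fun i _ => ?_)
    have h1 : ∀ z : Fin n → Bool,
        (((fiber J z).filter (fun x => x ∈ A ∧ PTF.flip x i ∉ A)).card : ℝ)
        = ∑ x ∈ fiber J z, if (gsign f J x = 1 ∧ ¬ gsign f J (PTF.flip x i) = 1) then (1 : ℝ)
            else 0 := by
      intro z
      rw [Finset.card_filter]
      push_cast
      refine Finset.sum_congr rfl (fun x _ => ?_)
      simp only [hA]
    simp only [h1]
    rw [sum_sum_fiber, hKdef]
    congr 1
    rw [Finset.card_filter]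
    push_cast
    rfl
  rw [hbd] at hsum
  -- conclude
  have hsens : ∀ i ∈ J, ((univ.filter (fun x : Fin n → Bool => f x ≠ f (PTF.flip x i))).card : ℝ)
      = 2 ^ n - 2 * ((univ.filter (fun x : Fin n → Bool =>
          gsign f J x = 1 ∧ ¬ gsign f J (PTF.flip x i) = 1)).card : ℝ) := by
    intro i hi
    have := sens_add f hi
    have h' : ((univ.filter (fun x : Fin n → Bool => f x ≠ f (PTF.flip x i))).card : ℝ)
      + 2 * ((univ.filter (fun x : Fin n → Bool =>
          gsign f J x = 1 ∧ ¬ gsign f J (PTF.flip x i) = 1)).card : ℝ) = 2 ^ n := by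
      exact_mod_cast this
    linarith
  rw [Finset.sum_congr rfl hsens, Finset.sum_sub_distrib, Finset.sum_const, nsmul_eq_mul,
    ← Finset.mul_sum, ← hNdef, ← hKdef]
  obtain ⟨D, hDdef⟩ : ∃ D : ℝ, D = ∑ i ∈ J, ((univ.filter (fun x : Fin n → Bool =>
          gsign f J x = 1 ∧ ¬ gsign f J (PTF.flip x i) = 1)).card : ℝ) := ⟨_, rfl⟩
  rw [← hDdef] at hsum ⊢
  have h4K : (4 : ℝ) ^ J.card = K * K := by
    rw [hKdef, ← mul_pow]; norm_num
  rw [h4K]
  have hD : (2 : ℝ) ^ n * (2 * N * (K - N)) / (K * K) ≤ D := by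
    rw [div_le_iff₀ (by positivity)]
    linarith
  have e : (2 : ℝ) ^ n * ((J.card : ℝ) - 4 * N * (K - N) / (K * K))
      = (J.card : ℝ) * 2 ^ n - 2 * ((2 : ℝ) ^ n * (2 * N * (K - N)) / (K * K)) := by
    field_simp
    ring
  rw [e]
  linarith

end combine


section final

/-- averaging: a bound on the sum of weights over every set of `k` coordinates extends to larger
sets -/
lemma avg_extend (w : Fin n → ℝ) (k : ℕ) (hk : 0 < k) (B : ℝ)
    (h : ∀ J : Finset (Fin n), J.card = k → ∑ i ∈ J, w i ≤ B * k) :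
    ∀ m : ℕ, k ≤ m → ∀ J : Finset (Fin n), J.card = m → ∑ i ∈ J, w i ≤ B * m := by
  intro m hm
  induction m, hm using Nat.le_induction with
  | base => exact h
  | succ m hkm ih =>
    intro J hJ
    have hmpos : (0 : ℝ) < m := by
      have : 0 < m := lt_of_lt_of_le hk hkm
      exact_mod_cast this
    have h1 : ∀ j ∈ J, ∑ i ∈ J, w i - w j ≤ B * m := by
      intro j hj
      rw [← Finset.sum_erase_eq_sub hj]
      refine ih (J.erase j) ?_
      rw [Finset.card_erase_of_mem hj, hJ]
      rfl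
    have h2 := Finset.sum_le_sum h1
    rw [Finset.sum_sub_distrib, Finset.sum_const, Finset.sum_const, hJ, nsmul_eq_mul,
      nsmul_eq_mul] at h2
    push_cast at h2 ⊢
    have h3 : (m : ℝ) * ∑ i ∈ J, w i ≤ m * (B * (m + 1)) := by linarith
    exact le_of_mul_le_mul_left h3 hmpos

lemma card_lowSets (J : Finset (Fin n)) (r : ℕ) :
    (lowSets J r).card = ∑ i ∈ Finset.range (r + 1), J.card.choose i := by
  have h : lowSets J r = (Finset.range (r + 1)).biUnion (fun i => Finset.powersetCard i J) := by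
    ext S
    simp only [mem_lowSets, Finset.mem_biUnion, Finset.mem_range, Finset.mem_powersetCard]
    constructor
    · rintro ⟨h1, h2⟩
      exact ⟨S.card, by omega, h1, rfl⟩
    · rintro ⟨i, hi, h1, h2⟩
      exact ⟨h1, by omega⟩
  rw [h, Finset.card_biUnion]
  · refine Finset.sum_congr rfl (fun i _ => ?_)
    rw [Finset.card_powersetCard]
  · intro i _ j _ hij
    exact Finset.pairwise_disjoint_powersetCard J hij

/-- a polynomial with the same signs that vanishes nowhere on the cube -/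
lemma exists_strict {d : ℕ} (p : MvPolynomial (Fin n) ℝ) (hp : p.totalDegree ≤ d)
    (f : (Fin n → Bool) → Bool) (hf : ∀ x, f x = true ↔ 0 ≤ ev p x) :
    ∃ p' : MvPolynomial (Fin n) ℝ, p'.totalDegree ≤ d ∧ (∀ x, f x = true → 0 < ev p' x)
      ∧ (∀ x, f x = false → ev p' x < 0) := by
  obtain ⟨ε, hε, hεlt⟩ : ∃ ε : ℝ, 0 < ε ∧ ∀ x : Fin n → Bool, ev p x < 0 → ev p x + ε < 0 := by
    by_cases hex : ∃ x : Fin n → Bool, ev p x < 0
    · obtain ⟨x0, hx0⟩ := hex
      have hne : (univ.filter (fun x : Fin n → Bool => ev p x < 0)).Nonempty :=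
        ⟨x0, by simp [hx0]⟩
      obtain ⟨y, hy, hymax⟩ := Finset.exists_max_image _ (fun x => ev p x) hne
      have hy0 : ev p y < 0 := (Finset.mem_filter.mp hy).2
      refine ⟨- ev p y / 2, by linarith, ?_⟩
      intro x hx
      have := hymax x (by simp [hx])
      linarith
    · push Not at hex
      exact ⟨1, one_pos, fun x hx => absurd hx (not_lt.mpr (hex x))⟩
  refine ⟨p + MvPolynomial.C ε, ?_, ?_, ?_⟩
  · refine (MvPolynomial.totalDegree_add _ _).trans ?_
    rw [MvPolynomial.totalDegree_C]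
    simp [hp]
  · intro x hx
    have := (hf x).mp hx
    simp only [ev, map_add, MvPolynomial.eval_C] at this ⊢
    linarith
  · intro x hx
    have h1 : ¬ 0 ≤ ev p x := by
      intro h
      have := (hf x).mpr h
      rw [hx] at this
      exact Bool.false_ne_true this
    have h2 := hεlt x (not_le.mp h1)
    simp only [ev, map_add, MvPolynomial.eval_C] at h2 ⊢
    exact h2

/-- General form: for every `k` with `d < k ≤ n`, with `N` the number of subsets of size at most
`(k - d - 1) / 2` of a `k`-set, a polynomial threshold function of degree at most `d` in `n`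
variables has average sensitivity at most `n (1 - 4 N (2^k - N) / (k 4^k))`. -/
theorem general_bound (n d k : ℕ) (hdk : d < k) (hkn : k ≤ n) (p : MvPolynomial (Fin n) ℝ)
    (hp : p.totalDegree ≤ d) (f : (Fin n → Bool) → Bool)
    (hf : ∀ x, f x = true ↔ 0 ≤ MvPolynomial.eval (fun i => sg (x i)) p) :
    totalInfluence f ≤ n * (1 - 4 * (∑ i ∈ Finset.range ((k - d - 1) / 2 + 1), (k.choose i : ℝ))
      * (2 ^ k - ∑ i ∈ Finset.range ((k - d - 1) / 2 + 1), (k.choose i : ℝ)) / (k * 4 ^ k)) := by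
  obtain ⟨p', hp', hpos, hneg⟩ := exists_strict p hp f hf
  obtain ⟨N, hNdef⟩ : ∃ N : ℝ, N = ∑ i ∈ Finset.range ((k - d - 1) / 2 + 1), (k.choose i : ℝ) :=
    ⟨_, rfl⟩
  rw [← hNdef]
  have hkpos : 0 < k := by omega
  have hkR : (0 : ℝ) < k := by exact_mod_cast hkpos
  obtain ⟨B, hBdef⟩ : ∃ B : ℝ, B = 2 ^ n * (1 - 4 * N * (2 ^ k - N) / (k * 4 ^ k)) := ⟨_, rfl⟩
  have hJ : ∀ J : Finset (Fin n), J.card = k →
      ∑ i ∈ J, ((univ.filter (fun x : Fin n → Bool => f x ≠ f (PTF.flip x i))).card : ℝ)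
        ≤ B * k := by
    intro J hJk
    have hk2 : 2 * ((k - d - 1) / 2) + d < J.card := by omega
    have h1 := perJ p' hp' f hpos hneg J hk2
    rw [card_lowSets, hJk] at h1
    push_cast at h1
    rw [← hNdef] at h1
    refine h1.trans (le_of_eq ?_)
    rw [hBdef]
    field_simp
  have hall := avg_extend
    (fun i => ((univ.filter (fun x : Fin n → Bool => f x ≠ f (PTF.flip x i))).card : ℝ)) k hkpos B
    hJ n hkn Finset.univ (by simp)
  unfold totalInfluence
  rw [← Finset.sum_div, div_le_iff₀ (by positivity)]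
  refine hall.trans (le_of_eq ?_)
  rw [hBdef]
  ring

end final


section numerics

/-- the lower binomial tail up to `(k - d - 1) / 2` is at most half of `2 ^ k`, and misses half by
at most `(d + 1) / 2` central binomial coefficients -/
lemma tail_bounds (k d : ℕ) (hdk : d < k) :
    2 * (∑ i ∈ Finset.range ((k - d - 1) / 2 + 1), k.choose i) ≤ 2 ^ k ∧
      2 ^ k ≤ 2 * (∑ i ∈ Finset.range ((k - d - 1) / 2 + 1), k.choose i)
        + (d + 1) * k.choose (k / 2) := by
  obtain ⟨r, hrdef⟩ : ∃ r : ℕ, r = (k - d - 1) / 2 := ⟨_, rfl⟩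
  rw [← hrdef]
  have hr1 : r + 1 ≤ k - r := by omega
  have hr2 : k - r ≤ k + 1 := by omega
  have htot := Nat.sum_range_choose k
  have hsplit1 := Finset.sum_range_add_sum_Ico (fun i => k.choose i) (hr1.trans hr2)
  have hsplit2 := Finset.sum_Ico_consecutive (fun i => k.choose i) hr1 hr2
  have hrefl := Finset.sum_Ico_reflect (fun i => k.choose i) 0 (m := r + 1) (n := k) (by omega)
  have hsym : ∑ j ∈ Finset.Ico 0 (r + 1), k.choose (k - j)
      = ∑ j ∈ Finset.range (r + 1), k.choose j := by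
    rw [Nat.Ico_zero_eq_range]
    refine Finset.sum_congr rfl (fun j hj => ?_)
    have : j ≤ k := by
      have := Finset.mem_range.mp hj
      omega
    exact Nat.choose_symm this
  have hmid : ∑ i ∈ Finset.Ico (r + 1) (k - r), k.choose i ≤ (d + 1) * k.choose (k / 2) := by
    calc ∑ i ∈ Finset.Ico (r + 1) (k - r), k.choose i
        ≤ ∑ _i ∈ Finset.Ico (r + 1) (k - r), k.choose (k / 2) :=
          Finset.sum_le_sum (fun i _ => Nat.choose_le_middle i k)
      _ = (k - r - (r + 1)) * k.choose (k / 2) := by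
          rw [Finset.sum_const, Nat.card_Ico, smul_eq_mul]
      _ ≤ (d + 1) * k.choose (k / 2) := Nat.mul_le_mul_right _ (by omega)
  have e1 : k + 1 - (r + 1) = k - r := by omega
  have e2 : k + 1 - 0 = k + 1 := by omega
  rw [e1, e2] at hrefl
  constructor
  · omega
  · omega

lemma centralBinom_sq_le (j : ℕ) : Nat.centralBinom j ^ 2 * (3 * j + 1) ≤ 16 ^ j := by
  induction j with
  | zero => simp
  | succ j ih =>
    have h := Nat.succ_mul_centralBinom_succ j
    have h1 : ((j + 1) * Nat.centralBinom (j + 1)) ^ 2 * ((3 * (j + 1) + 1) * (3 * j + 1))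
        ≤ (j + 1) ^ 2 * (3 * j + 1) * 16 ^ (j + 1) := by
      rw [h]
      have h2 : (2 * (2 * j + 1)) ^ 2 * (3 * (j + 1) + 1) ≤ 16 * (j + 1) ^ 2 * (3 * j + 1) := by
        nlinarith
      calc (2 * (2 * j + 1) * Nat.centralBinom j) ^ 2 * ((3 * (j + 1) + 1) * (3 * j + 1))
          = ((2 * (2 * j + 1)) ^ 2 * (3 * (j + 1) + 1)) * (Nat.centralBinom j ^ 2 * (3 * j + 1)) := by
            ring
        _ ≤ (16 * (j + 1) ^ 2 * (3 * j + 1)) * 16 ^ j := Nat.mul_le_mul h2 ih
        _ = (j + 1) ^ 2 * (3 * j + 1) * 16 ^ (j + 1) := by ring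
    have h3 : (j + 1) ^ 2 * (3 * j + 1) * (Nat.centralBinom (j + 1) ^ 2 * (3 * (j + 1) + 1))
        ≤ (j + 1) ^ 2 * (3 * j + 1) * 16 ^ (j + 1) := by
      calc (j + 1) ^ 2 * (3 * j + 1) * (Nat.centralBinom (j + 1) ^ 2 * (3 * (j + 1) + 1))
          = ((j + 1) * Nat.centralBinom (j + 1)) ^ 2 * ((3 * (j + 1) + 1) * (3 * j + 1)) := by ring
        _ ≤ _ := h1
    exact Nat.le_of_mul_le_mul_left h3 (by positivity)

/-- for `k = 4 (d+1)^2` the two sides of the parity split each have at least a `(1 - 1/√6)/2`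
fraction: `4 N (2^k - N) ≥ (5/6) 4^k` -/
lemma explicit_count (d : ℕ) :
    (5 : ℝ) / 6 * 4 ^ (4 * (d + 1) ^ 2)
      ≤ 4 * (∑ i ∈ Finset.range ((4 * (d + 1) ^ 2 - d - 1) / 2 + 1),
          ((4 * (d + 1) ^ 2).choose i : ℝ))
        * (2 ^ (4 * (d + 1) ^ 2) - ∑ i ∈ Finset.range ((4 * (d + 1) ^ 2 - d - 1) / 2 + 1),
          ((4 * (d + 1) ^ 2).choose i : ℝ)) := by
  obtain ⟨k, hkdef⟩ : ∃ k : ℕ, k = 4 * (d + 1) ^ 2 := ⟨_, rfl⟩
  obtain ⟨j, hjdef⟩ : ∃ j : ℕ, j = 2 * (d + 1) ^ 2 := ⟨_, rfl⟩
  have hkj : k = 2 * j := by rw [hkdef, hjdef]; ring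
  rw [← hkdef]
  have hdk : d < k := by rw [hkdef]; nlinarith
  obtain ⟨h1, h2⟩ := tail_bounds k d hdk
  have hC : k.choose (k / 2) = Nat.centralBinom j := by
    rw [Nat.centralBinom_eq_two_mul_choose, hkj]
    congr 1
    omega
  rw [hC] at h2
  have h3 := centralBinom_sq_le j
  obtain ⟨N, hNdef⟩ : ∃ N : ℕ, N = ∑ i ∈ Finset.range ((k - d - 1) / 2 + 1), k.choose i :=
    ⟨_, rfl⟩
  rw [← hNdef] at h1 h2
  have hN : (∑ i ∈ Finset.range ((k - d - 1) / 2 + 1), (k.choose i : ℝ)) = (N : ℝ) := by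
    rw [hNdef]; push_cast; rfl
  rw [hN]
  obtain ⟨M, hMdef⟩ : ∃ M : ℝ, M = ((d : ℝ) + 1) * (Nat.centralBinom j : ℝ) := ⟨_, rfl⟩
  have r1 : (2 : ℝ) * N ≤ 2 ^ k := by exact_mod_cast h1
  have r2 : (2 : ℝ) ^ k ≤ 2 * N + M := by
    rw [hMdef]; exact_mod_cast h2
  have r3 : 6 * M ^ 2 ≤ (4 : ℝ) ^ k := by
    have h3' : ((Nat.centralBinom j : ℝ)) ^ 2 * (3 * (j : ℝ) + 1) ≤ (16 : ℝ) ^ j := by
      exact_mod_cast h3
    have h16 : (16 : ℝ) ^ j = (4 : ℝ) ^ k := by
      rw [hkj, pow_mul]; norm_num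
    have hj' : (j : ℝ) = 2 * ((d : ℝ) + 1) ^ 2 := by
      rw [hjdef]; push_cast; ring
    rw [h16, hj'] at h3'
    rw [hMdef]
    have hc : (0 : ℝ) ≤ (Nat.centralBinom j : ℝ) ^ 2 := by positivity
    nlinarith
  have hM0 : 0 ≤ M := by rw [hMdef]; positivity
  have h4 : (4 : ℝ) ^ k = (2 : ℝ) ^ k * 2 ^ k := by
    rw [← mul_pow]; norm_num
  have hdiff : ((2 : ℝ) ^ k - 2 * N) ^ 2 ≤ M ^ 2 := by
    have ha : 0 ≤ (2 : ℝ) ^ k - 2 * N := by linarith
    have hb : (2 : ℝ) ^ k - 2 * N ≤ M := by linarith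
    nlinarith
  nlinarith

/-- Explicit form: if `n ≥ 4 (d+1)^2`, every polynomial threshold function of degree at most `d`
in `n` variables has average sensitivity at most `n (1 - 5 / (24 (d+1)^2))`. -/
theorem explicit_bound (n d : ℕ) (hn : 4 * (d + 1) ^ 2 ≤ n) (p : MvPolynomial (Fin n) ℝ)
    (hp : p.totalDegree ≤ d) (f : (Fin n → Bool) → Bool)
    (hf : ∀ x, f x = true ↔ 0 ≤ MvPolynomial.eval (fun i => sg (x i)) p) :
    totalInfluence f ≤ n * (1 - 5 / (24 * ((d : ℝ) + 1) ^ 2)) := by
  have hdk : d < 4 * (d + 1) ^ 2 := by nlinarith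
  have h := general_bound n d (4 * (d + 1) ^ 2) hdk hn p hp f hf
  refine h.trans ?_
  have hc := explicit_count d
  have hn0 : (0 : ℝ) ≤ n := by positivity
  refine mul_le_mul_of_nonneg_left ?_ hn0
  have hk : ((4 * (d + 1) ^ 2 : ℕ) : ℝ) = 4 * ((d : ℝ) + 1) ^ 2 := by push_cast; ring
  rw [hk]
  have h4pos : (0 : ℝ) < 4 ^ (4 * (d + 1) ^ 2) := by positivity
  have hdpos : (0 : ℝ) < 4 * ((d : ℝ) + 1) ^ 2 := by positivity
  have key : 5 / (24 * ((d : ℝ) + 1) ^ 2)
      ≤ 4 * (∑ i ∈ Finset.range ((4 * (d + 1) ^ 2 - d - 1) / 2 + 1),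
          ((4 * (d + 1) ^ 2).choose i : ℝ))
        * (2 ^ (4 * (d + 1) ^ 2) - ∑ i ∈ Finset.range ((4 * (d + 1) ^ 2 - d - 1) / 2 + 1),
          ((4 * (d + 1) ^ 2).choose i : ℝ)) / (4 * ((d : ℝ) + 1) ^ 2 * 4 ^ (4 * (d + 1) ^ 2)) := by
    rw [le_div_iff₀ (by positivity)]
    calc 5 / (24 * ((d : ℝ) + 1) ^ 2) * (4 * ((d : ℝ) + 1) ^ 2 * 4 ^ (4 * (d + 1) ^ 2))
        = 5 / 6 * 4 ^ (4 * (d + 1) ^ 2) := by
          field_simp
          ring
      _ ≤ _ := hc
  linarith

end numerics

end Vale.Agent.H83.ParityBound
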